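import Mathlib

namespace Vale.Agent.P036

open Finset

section defs
variable {R : Type*} [CommRing R]

def dot (a b : Fin 3 → R) : R := a 0 * b 0 + a 1 * b 1 + a 2 * b 2

def cr (a b : Fin 3 → R) : Fin 3 → R :=
  ![a 1 * b 2 - a 2 * b 1, a 2 * b 0 - a 0 * b 2, a 0 * b 1 - a 1 * b 0]

def sg (a : Fin 3 → R) : R := a 0 + a 1 + a 2

def det3 (y : Fin 3 → Fin 3 → R) : R := dot (y 0) (cr (y 1) (y 2))

@[simp] lemma cr0 (a b : Fin 3 → R) : cr a b 0 = a 1 * b 2 - a 2 * b 1 := rfl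
@[simp] lemma cr1 (a b : Fin 3 → R) : cr a b 1 = a 2 * b 0 - a 0 * b 2 := rfl
@[simp] lemma cr2 (a b : Fin 3 → R) : cr a b 2 = a 0 * b 1 - a 1 * b 0 := rfl

lemma ext3 {α : Type*} {a b : Fin 3 → α} (h0 : a 0 = b 0) (h1 : a 1 = b 1) (h2 : a 2 = b 2) :
    a = b := by
  funext i
  fin_cases i
  · exact h0
  · exact h1
  · exact h2

lemma forall3 {p : Fin 3 → Prop} (h0 : p 0) (h1 : p 1) (h2 : p 2) : ∀ i, p i := by
  intro i
  fin_cases i
  · exact h0
  · exact h1
  · exact h2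

lemma cr_eq_zero_iff (a b : Fin 3 → R) : cr a b = 0 ↔ ∀ k l, a k * b l = a l * b k := by
  constructor
  · intro h
    have h0 := congrFun h 0
    have h1 := congrFun h 1
    have h2 := congrFun h 2
    simp only [cr0, cr1, cr2, Pi.zero_apply] at h0 h1 h2
    refine forall3 (forall3 rfl ?_ ?_) (forall3 ?_ rfl ?_) (forall3 ?_ ?_ rfl)
    · linear_combination h2
    · linear_combination -h1
    · linear_combination -h2
    · linear_combination h0
    · linear_combination h1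
    · linear_combination -h0
  · intro h
    refine ext3 ?_ ?_ ?_ <;> simp only [cr0, cr1, cr2, Pi.zero_apply]
    · linear_combination h 1 2
    · linear_combination h 2 0
    · linear_combination h 0 1

lemma cr_eq_smul (u v x b : Fin 3 → R) (hb : dot b x = 1) (hu : dot u x = 0) (hv : dot v x = 0)
    (c : Fin 3) : cr u v c = dot b (cr u v) * x c := by
  unfold dot at *
  simp only [cr0, cr1, cr2]
  revert c
  refine forall3 ?_ ?_ ?_ <;> simp only [cr0, cr1, cr2]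
  · linear_combination (-(u 1 * v 2 - u 2 * v 1)) * hb + (b 1 * v 2 - b 2 * v 1) * hu
      - (b 1 * u 2 - b 2 * u 1) * hv
  · linear_combination (-(u 2 * v 0 - u 0 * v 2)) * hb + (b 2 * v 0 - b 0 * v 2) * hu
      - (b 2 * u 0 - b 0 * u 2) * hv
  · linear_combination (-(u 0 * v 1 - u 1 * v 0)) * hb + (b 0 * v 1 - b 1 * v 0) * hu
      - (b 0 * u 1 - b 1 * u 0) * hv

lemma cr_trans [IsDomain R] (e u v : Fin 3 → R) (he : e ≠ 0) (hu : cr e u = 0)
    (hv : cr e v = 0) : cr u v = 0 := by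
  obtain ⟨c, hc⟩ : ∃ c, e c ≠ 0 := by
    by_contra h
    push Not at h
    exact he (funext h)
  rw [cr_eq_zero_iff] at *
  intro k l
  have : e c * (u k * v l - u l * v k) = 0 := by
    linear_combination v l * hu c k - v k * hu c l + u c * hv k l
  rcases mul_eq_zero.1 this with h | h
  · exact absurd h hc
  · linear_combination h

lemma det3_eq_det (y : Fin 3 → Fin 3 → R) : det3 y = (Matrix.of y).det := by
  rw [Matrix.det_fin_three]
  simp only [det3, dot, cr0, cr1, cr2, Matrix.of_apply]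
  ring

lemma det3_transpose (y : Fin 3 → Fin 3 → R) : det3 (fun i j => y j i) = det3 y := by
  simp only [det3, dot, cr0, cr1, cr2]
  ring

lemma dot_cr_left (a b : Fin 3 → R) : dot a (cr a b) = 0 := by
  simp only [dot, cr0, cr1, cr2]; ring

lemma dot_cr_right (a b : Fin 3 → R) : dot b (cr a b) = 0 := by
  simp only [dot, cr0, cr1, cr2]; ring

lemma dot_cr_rows (y : Fin 3 → Fin 3 → R) (h : det3 y = 0) (i j k : Fin 3) :
    dot (y k) (cr (y i) (y j)) = 0 := by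
  simp only [det3, dot, cr0, cr1, cr2] at *
  revert k j i
  refine forall3 (forall3 (forall3 ?_ ?_ ?_) (forall3 ?_ ?_ ?_) (forall3 ?_ ?_ ?_))
    (forall3 (forall3 ?_ ?_ ?_) (forall3 ?_ ?_ ?_) (forall3 ?_ ?_ ?_))
    (forall3 (forall3 ?_ ?_ ?_) (forall3 ?_ ?_ ?_) (forall3 ?_ ?_ ?_)) <;>
  first
    | ring1
    | linear_combination h
    | linear_combination -h

end defs

def sn (a : Fin 3 → ℤ) : ℕ := max (a 0).natAbs (max (a 1).natAbs (a 2).natAbs)

noncomputable def cube (B : ℕ) : Finset (Fin 3 → ℤ) := Fintype.piFinset fun _ => Finset.Icc (-(B : ℤ)) B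

lemma le_sn (a : Fin 3 → ℤ) (c : Fin 3) : (a c).natAbs ≤ sn a := by
  revert c
  unfold sn
  refine forall3 ?_ ?_ ?_ <;> omega

lemma sn_le_iff (a : Fin 3 → ℤ) (B : ℕ) : sn a ≤ B ↔ ∀ c, (a c).natAbs ≤ B := by
  constructor
  · intro h c
    exact (le_sn a c).trans h
  · intro h
    have h0 := h 0
    have h1 := h 1
    have h2 := h 2
    unfold sn
    omega

lemma exists_sn (a : Fin 3 → ℤ) : ∃ c, (a c).natAbs = sn a := by
  unfold sn
  by_cases h0 : (a 0).natAbs = max (a 0).natAbs (max (a 1).natAbs (a 2).natAbs)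
  · exact ⟨0, h0⟩
  by_cases h1 : (a 1).natAbs = max (a 0).natAbs (max (a 1).natAbs (a 2).natAbs)
  · exact ⟨1, h1⟩
  · exact ⟨2, by omega⟩

lemma mem_cube (a : Fin 3 → ℤ) (B : ℕ) : a ∈ cube B ↔ sn a ≤ B := by
  rw [sn_le_iff, cube, Fintype.mem_piFinset]
  refine forall_congr' fun c => ?_
  rw [Finset.mem_Icc]
  omega

lemma card_cube (B : ℕ) : (cube B).card = (2 * B + 1) ^ 3 := by
  rw [cube, Fintype.card_piFinset]
  simp only [Int.card_Icc, Finset.prod_const, Finset.card_univ, Fintype.card_fin]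
  congr 1
  omega

lemma sn_pos (a : Fin 3 → ℤ) (h : a ≠ 0) : 0 < sn a := by
  by_contra h0
  have h1 : sn a ≤ 0 := by omega
  rw [sn_le_iff] at h1
  apply h
  funext c
  have := h1 c
  simp only [Pi.zero_apply]
  omega

lemma sn_cr_le (a b : Fin 3 → ℤ) : sn (cr a b) ≤ 2 * (sn a * sn b) := by
  rw [sn_le_iff]
  have key : ∀ i j k l, (a i * b j - a k * b l).natAbs ≤ 2 * (sn a * sn b) := by
    intro i j k l
    have h1 := Int.natAbs_sub_le (a i * b j) (a k * b l)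
    rw [Int.natAbs_mul, Int.natAbs_mul] at h1
    have h2 := Nat.mul_le_mul (le_sn a i) (le_sn b j)
    have h3 := Nat.mul_le_mul (le_sn a k) (le_sn b l)
    omega
  exact forall3 (key _ _ _ _) (key _ _ _ _) (key _ _ _ _)

lemma exists_prim (w : Fin 3 → ℤ) (hw : w ≠ 0) :
    ∃ (x b : Fin 3 → ℤ) (m : ℤ), m ≠ 0 ∧ dot b x = 1 ∧ ∀ c, w c = m * x c := by
  set g1 : ℤ := (Int.gcd (w 0) (w 1) : ℤ) with hg1
  set g : ℤ := (Int.gcd g1 (w 2) : ℤ) with hg
  have h1 : g1 = w 0 * Int.gcdA (w 0) (w 1) + w 1 * Int.gcdB (w 0) (w 1) :=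
    Int.gcd_eq_gcd_ab _ _
  have h2 : g = g1 * Int.gcdA g1 (w 2) + w 2 * Int.gcdB g1 (w 2) := Int.gcd_eq_gcd_ab _ _
  have d1 : g ∣ g1 := Int.gcd_dvd_left _ _
  have d0 : g ∣ w 0 := d1.trans (Int.gcd_dvd_left _ _)
  have d1' : g ∣ w 1 := d1.trans (Int.gcd_dvd_right _ _)
  have d2 : g ∣ w 2 := Int.gcd_dvd_right _ _
  obtain ⟨x0, hx0⟩ := d0
  obtain ⟨x1, hx1⟩ := d1'
  obtain ⟨x2, hx2⟩ := d2
  have hg0 : g ≠ 0 := by
    intro h
    apply hw
    refine ext3 ?_ ?_ ?_ <;> simp [hx0, hx1, hx2, h]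
  refine ⟨![x0, x1, x2], ![Int.gcdA (w 0) (w 1) * Int.gcdA g1 (w 2),
    Int.gcdB (w 0) (w 1) * Int.gcdA g1 (w 2), Int.gcdB g1 (w 2)], g, hg0, ?_, ?_⟩
  · apply mul_left_cancel₀ hg0
    simp only [dot, Matrix.cons_val_zero, Matrix.cons_val_one, Matrix.cons_val]
    generalize Int.gcdA (w 0) (w 1) = A at *
    generalize Int.gcdB (w 0) (w 1) = B at *
    generalize Int.gcdA g1 (w 2) = A' at *
    generalize Int.gcdB g1 (w 2) = B' at *
    linear_combination -h2 - A' * h1 - A * A' * hx0 - B * A' * hx1 - B' * hx2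
  · exact forall3 hx0 hx1 hx2

end Vale.Agent.P036
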