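import Vale.Agent.P036.Plane

namespace Vale.Agent.P036

open Finset

lemma sum_slices (L : AddSubgroup (Fin 3 → ℤ)) (k : ℕ) (hk : 0 < k)
    (hL : ∀ u ∈ L, ∀ v ∈ L, ∀ c, (k : ℤ) ∣ cr u v c) (B J : ℕ) (hJ : 18 * B ^ 2 < 2 ^ J)
    (S : Finset (Fin 3 → ℤ))
    (hS : ∀ x ∈ S, (∃ b, dot b x = 1) ∧ ∃ u ∈ slice L B x, ∃ v ∈ slice L B x, cr u v ≠ 0)
    (c : ℝ)
    (hc : ∀ X : ℕ, 1 ≤ X → (((S.filter fun x => sn x ≤ X).card : ℕ) : ℝ) ≤ c * (X : ℝ) ^ 3) :
    ∑ x ∈ S, (((slice L B x).card : ℕ) : ℝ) ^ 3 ≤ (18 * (B : ℝ) ^ 2 / k) ^ 3 * (8 * c * J) := by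
  have hp : ∀ x ∈ S, (slice L B x).card * (k * sn x) ≤ 18 * B ^ 2 := by
    intro x hx
    obtain ⟨⟨b, hb⟩, u, hu, v, hv, hne⟩ := hS x hx
    exact plane L k hk hL x b hb B u v hu hv hne
  have h0 : ∀ x ∈ S, x ≠ 0 := by
    intro x hx
    obtain ⟨⟨b, hb⟩, -⟩ := hS x hx
    rintro rfl
    simp [dot] at hb
  have hJ' : ∀ x ∈ S, sn x < 2 ^ J := by
    intro x hx
    obtain ⟨-, u, hu, -⟩ := hS x hx
    have h1 : 1 ≤ (slice L B x).card := Finset.card_pos.2 ⟨u, hu⟩
    have h2 := hp x hx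
    have h3 : 1 * (1 * sn x) ≤ (slice L B x).card * (k * sn x) :=
      Nat.mul_le_mul h1 (Nat.mul_le_mul_right _ hk)
    omega
  have hd := dyadic S c J h0 hJ' hc
  have hk' : (0 : ℝ) < k := by exact_mod_cast hk
  calc ∑ x ∈ S, (((slice L B x).card : ℕ) : ℝ) ^ 3
      ≤ ∑ x ∈ S, (18 * (B : ℝ) ^ 2 / k) ^ 3 * (1 / ((sn x : ℕ) : ℝ) ^ 3) := by
        apply Finset.sum_le_sum
        intro x hx
        have hs : (0 : ℝ) < ((sn x : ℕ) : ℝ) := by exact_mod_cast sn_pos x (h0 x hx)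
        have h1 : (((slice L B x).card : ℕ) : ℝ) * (k * ((sn x : ℕ) : ℝ)) ≤ 18 * (B : ℝ) ^ 2 := by
          exact_mod_cast hp x hx
        have h2 : (((slice L B x).card : ℕ) : ℝ) ≤ 18 * (B : ℝ) ^ 2 / k / ((sn x : ℕ) : ℝ) := by
          rw [div_div, le_div_iff₀ (by positivity)]
          exact h1
        calc _ ≤ (18 * (B : ℝ) ^ 2 / k / ((sn x : ℕ) : ℝ)) ^ 3 :=
              pow_le_pow_left₀ (by positivity) h2 3
          _ = _ := by field_simp
    _ = (18 * (B : ℝ) ^ 2 / k) ^ 3 * ∑ x ∈ S, 1 / ((sn x : ℕ) : ℝ) ^ 3 := by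
        rw [Finset.mul_sum]
    _ ≤ _ := mul_le_mul_of_nonneg_left hd (by positivity)

lemma dot_of_mul (y w x : Fin 3 → ℤ) (m : ℤ) (hm : m ≠ 0) (h : ∀ c, w c = m * x c)
    (hy : dot y w = 0) : dot y x = 0 := by
  apply mul_left_cancel₀ hm
  unfold dot at *
  rw [h 0, h 1, h 2] at hy
  linear_combination hy

/-- Integer matrices in a box with a given nonzero determinant. -/
lemma count_det (B J : ℕ) (hJ : 18 * B ^ 2 < 2 ^ J) (d : ℤ) (hd : d ≠ 0)
    (A : Finset (Fin 3 → Fin 3 → ℤ))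
    (hA : ∀ V ∈ A, (∀ c j, 0 ≤ V c j ∧ V c j ≤ B) ∧ det3 V = d) :
    (A.card : ℝ) ≤ 1259712 * J * (B : ℝ) ^ 6 := by
  classical
  have hprim : ∀ w : Fin 3 → ℤ, ∃ x : Fin 3 → ℤ, w ≠ 0 →
      ∃ (b : Fin 3 → ℤ) (m : ℤ), m ≠ 0 ∧ dot b x = 1 ∧ ∀ c, w c = m * x c := by
    intro w
    by_cases hw : w = 0
    · exact ⟨0, fun h => absurd hw h⟩
    · obtain ⟨x, b, m, h⟩ := exists_prim w hw
      exact ⟨x, fun _ => ⟨b, m, h⟩⟩
  choose px hpx using hprim
  have hy : ∀ y1 y2 : Fin 3 → ℤ, ∃ y : Fin 3 → ℤ, (∃ V ∈ A, V 1 = y1 ∧ V 2 = y2) →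
      (∀ j, 0 ≤ y j ∧ y j ≤ B) ∧ dot y (cr y1 y2) = d := by
    intro y1 y2
    by_cases h : ∃ V ∈ A, V 1 = y1 ∧ V 2 = y2
    · obtain ⟨V, hV, rfl, rfl⟩ := h
      exact ⟨V 0, fun _ => ⟨(hA V hV).1 0, (hA V hV).2⟩⟩
    · exact ⟨0, fun h' => absurd h' h⟩
  choose ys hys using hy
  have hne : ∀ V ∈ A, cr (V 1) (V 2) ≠ 0 := by
    intro V hV h
    have := (hA V hV).2
    rw [det3, h] at this
    simp only [dot, Pi.zero_apply, mul_zero, add_zero] at this
    exact hd this.symm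
  have hbox : ∀ V ∈ A, ∀ c, sn (V c) ≤ B := by
    intro V hV c
    rw [sn_le_iff]
    intro j
    have := (hA V hV).1 c j
    omega
  set f : (Fin 3 → Fin 3 → ℤ) → (Fin 3 → ℤ) := fun V => px (cr (V 1) (V 2)) with hf
  have hrow : ∀ V ∈ A, V 1 ∈ slice ⊤ B (f V) ∧ V 2 ∈ slice ⊤ B (f V) ∧
      V 0 - ys (V 1) (V 2) ∈ slice ⊤ B (f V) := by
    intro V hV
    obtain ⟨b, m, hm, hb, hw⟩ := hpx _ (hne V hV)
    simp only [mem_slice, AddSubgroup.mem_top, true_and]
    refine ⟨⟨hbox V hV 1, dot_of_mul _ _ _ m hm hw (dot_cr_left _ _)⟩,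
      ⟨hbox V hV 2, dot_of_mul _ _ _ m hm hw (dot_cr_right _ _)⟩, ?_, ?_⟩
    · rw [sn_le_iff]
      intro j
      have h1 := (hA V hV).1 0 j
      have h2 := (hys (V 1) (V 2) ⟨V, hV, rfl, rfl⟩).1 j
      simp only [Pi.sub_apply]
      omega
    · apply dot_of_mul _ _ _ m hm hw
      have h1 := (hA V hV).2
      have h2 := (hys (V 1) (V 2) ⟨V, hV, rfl, rfl⟩).2
      unfold det3 at h1
      unfold dot at *
      simp only [Pi.sub_apply]
      linear_combination h1 - h2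
  have h1 : A.card = ∑ x ∈ A.image f, (A.filter fun V => f V = x).card :=
    Finset.card_eq_sum_card_image f A
  have h2 : ∀ x ∈ A.image f, (A.filter fun V => f V = x).card ≤ (slice ⊤ B x).card ^ 3 := by
    intro x _
    have : ((slice ⊤ B x) ×ˢ (slice ⊤ B x) ×ˢ (slice ⊤ B x)).card = (slice ⊤ B x).card ^ 3 := by
      rw [Finset.card_product, Finset.card_product]; ring
    rw [← this]
    apply Finset.card_le_card_of_injOn (fun V => (V 0 - ys (V 1) (V 2), V 1, V 2))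
    · intro V hV
      have hV' := Finset.mem_filter.1 (Finset.mem_coe.1 hV)
      have := hrow V hV'.1
      rw [hV'.2] at this
      simp only [Finset.coe_product, Set.mem_prod, Finset.mem_coe]
      exact ⟨this.2.2, this.1, this.2.1⟩
    · intro V _ V' _ h
      simp only [Prod.mk.injEq] at h
      obtain ⟨e0, e1, e2⟩ := h
      rw [e1, e2] at e0
      exact ext3 (sub_left_injective e0) e1 e2
  have h3 := sum_slices ⊤ 1 one_pos (by simp) B J hJ (A.image f) (by
    intro x hx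
    obtain ⟨V, hV, rfl⟩ := Finset.mem_image.1 hx
    obtain ⟨b, m, hm, hb, hw⟩ := hpx _ (hne V hV)
    exact ⟨⟨b, hb⟩, V 1, (hrow V hV).1, V 2, (hrow V hV).2.1, hne V hV⟩) 27 (by
    intro X hX
    have e1 : ((A.image f).filter fun x => sn x ≤ X).card ≤ (cube X).card := by
      apply Finset.card_le_card
      intro x hx
      exact (mem_cube _ _).2 (Finset.mem_filter.1 hx).2
    rw [card_cube] at e1
    have e2 : (2 * X + 1) ^ 3 ≤ (3 * X) ^ 3 := Nat.pow_le_pow_left (by omega) 3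
    have e3 : ((A.image f).filter fun x => sn x ≤ X).card ≤ 27 * X ^ 3 := by
      calc _ ≤ (3 * X) ^ 3 := e1.trans e2
        _ = _ := by ring
    exact_mod_cast e3)
  have h4 : (A.card : ℝ) ≤ ∑ x ∈ A.image f, (((slice ⊤ B x).card : ℕ) : ℝ) ^ 3 := by
    have := Finset.sum_le_sum h2
    rw [← h1] at this
    exact_mod_cast this
  refine h4.trans (h3.trans (le_of_eq ?_))
  push_cast
  ring

lemma count_aux {β : Type*} (q d X : ℕ) (hq : 0 < q) (hd : 0 < d) (W : Finset β)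
    (T : Finset (Fin 3 → ℤ)) (φ : (Fin 3 → ℤ) → β)
    (hT : ∀ x ∈ T, sn x ≤ X ∧ sg x ≠ 0 ∧ (d : ℤ) ∣ sg x ∧ φ x ∈ W)
    (hinj : ∀ x ∈ T, ∀ x' ∈ T, sg x = sg x' → φ x = φ x' → ∀ c, (q : ℤ) ∣ x c - x' c) :
    T.card * (d * q ^ 2) ≤ 6 * X * W.card * (2 * X + q) ^ 2 := by
  classical
  set m := 3 * X / d with hm
  set t := 2 * X / q with ht
  have hm2 : m * d ≤ 3 * X := Nat.div_mul_le_self _ _
  have ht2 : t * q ≤ 2 * X := Nat.div_mul_le_self _ _
  have hcard : T.card ≤ (2 * m) * (W.card * ((t + 1) * (t + 1))) := by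
    have hc2 : (((Finset.Icc (-(m : ℤ)) m).erase 0) ×ˢ W ×ˢ (Finset.range (t + 1)) ×ˢ
        (Finset.range (t + 1))).card = (2 * m) * (W.card * ((t + 1) * (t + 1))) := by
      rw [Finset.card_product, Finset.card_product, Finset.card_product, Finset.card_range,
        Finset.card_erase_of_mem (by simp), Int.card_Icc]
      congr 1
      omega
    rw [← hc2]
    have hd' : (d : ℤ) ≠ 0 := by exact_mod_cast hd.ne'
    apply Finset.card_le_card_of_injOn
      (fun x : Fin 3 → ℤ => (sg x / (d : ℤ), φ x, (x 0 + (X : ℤ)).toNat / q,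
        (x 1 + (X : ℤ)).toNat / q))
    · intro x hx
      obtain ⟨h1, h2, ⟨j, hj⟩, h4⟩ := hT x hx
      simp only [Finset.coe_product, Set.mem_prod, Finset.mem_coe, Finset.mem_erase,
        Finset.mem_Icc, Finset.mem_range]
      have hj' : sg x / d = j := by rw [hj, Int.mul_ediv_cancel_left _ hd']
      have b0 := (le_sn x 0).trans h1
      have b1 := (le_sn x 1).trans h1
      have b2 := (le_sn x 2).trans h1
      have hjm : j.natAbs ≤ m := by
        apply (Nat.le_div_iff_mul_le hd).2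
        have e : (sg x).natAbs ≤ 3 * X := by
          unfold sg
          omega
        rw [hj, Int.natAbs_mul, Int.natAbs_natCast, mul_comm] at e
        exact e
      have hj0 : j ≠ 0 := by
        rintro rfl
        simp at hj
        exact h2 hj
      refine ⟨⟨by rw [hj']; exact hj0, by rw [hj']; omega⟩, h4, ?_, ?_⟩
      · have h3 : (x 0 + X).toNat / q ≤ t := Nat.div_le_div_right (by omega)
        omega
      · have h3 : (x 1 + X).toNat / q ≤ t := Nat.div_le_div_right (by omega)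
        omega
    · intro x hx x' hx' h
      simp only [Prod.mk.injEq] at h
      obtain ⟨e0, e1, e2, e3⟩ := h
      obtain ⟨h1, -, ⟨j, hj⟩, -⟩ := hT x hx
      obtain ⟨h1', -, ⟨j', hj'⟩, -⟩ := hT x' hx'
      have hs : sg x = sg x' := by
        rw [hj, hj', Int.mul_ediv_cancel_left _ hd', Int.mul_ediv_cancel_left _ hd'] at e0
        rw [hj, hj', e0]
      have hq' := hinj x hx x' hx' hs e1
      have key : ∀ c, (x c + X).toNat / q = (x' c + X).toNat / q → x c = x' c := by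
        intro c hc
        have b1 := (le_sn x c).trans h1
        have b2 := (le_sn x' c).trans h1'
        have q1 := Nat.div_add_mod (x c + X).toNat q
        have q2 := Nat.div_add_mod (x' c + X).toNat q
        have r1 := Nat.mod_lt (x c + X).toNat hq
        have r2 := Nat.mod_lt (x' c + X).toNat hq
        rw [hc] at q1
        generalize q * ((x' c + X).toNat / q) = w at *
        have hlt : (x c - x' c).natAbs < (q : ℤ).natAbs := by omega
        have := Int.eq_zero_of_dvd_of_natAbs_lt_natAbs (hq' c) hlt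
        omega
      have k0 := key 0 e2
      have k1 := key 1 e3
      refine ext3 k0 k1 ?_
      unfold sg at hs
      omega
  have h4 : (t + 1) * q ≤ 2 * X + q := by nlinarith
  calc T.card * (d * q ^ 2) ≤ (2 * m) * (W.card * ((t + 1) * (t + 1))) * (d * q ^ 2) :=
        Nat.mul_le_mul_right _ hcard
    _ = 2 * (m * d) * W.card * ((t + 1) * q) ^ 2 := by ring
    _ ≤ 2 * (3 * X) * W.card * (2 * X + q) ^ 2 := by gcongr
    _ = _ := by ring

/-- Reduction of an integer vector. -/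
def red (q : ℕ) (x : Fin 3 → ℤ) : Fin 3 → ZMod q := fun c => (x c : ZMod q)

lemma sg_red (q : ℕ) (x : Fin 3 → ℤ) : sg (red q x) = ((sg x : ℤ) : ZMod q) := by
  simp [sg, red]

lemma count_ker (q r : ℕ) [hq : Fact q.Prime] (hr : r.Prime) (hqr : q < r)
    (U : Finset (Fin 3 → ZMod q)) (hU : ∀ u ∈ U, ∀ a : ZMod q, a • u ∈ U) (X : ℕ)
    (T : Finset (Fin 3 → ℤ))
    (hT : ∀ x ∈ T, sn x ≤ X ∧ sg x ≠ 0 ∧ (r : ℤ) ∣ sg x ∧ red q x ∈ U) :
    T.card * (q ^ 3 * r) ≤ 450 * U.card * X ^ 3 := by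
  classical
  rcases T.eq_empty_or_nonempty with rfl | ⟨x0, hx0⟩
  · simp
  have hrX : r ≤ 3 * X := by
    obtain ⟨h1, h2, h3, -⟩ := hT x0 hx0
    have e := Int.natAbs_le_of_dvd_ne_zero h3 h2
    have b0 := (le_sn x0 0).trans h1
    have b1 := (le_sn x0 1).trans h1
    have b2 := (le_sn x0 2).trans h1
    unfold sg at e
    omega
  have hq2 : 2 ≤ q := hq.out.two_le
  have hsq : (2 * X + q) ^ 2 ≤ (5 * X) ^ 2 := Nat.pow_le_pow_left (by omega) 2
  have hred : ∀ x x' : Fin 3 → ℤ, red q x = red q x' → ∀ c, (q : ℤ) ∣ x c - x' c := by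
    intro x x' h c
    have := congrFun h c
    simp only [red] at this
    exact (ZMod.intCast_eq_intCast_iff_dvd_sub _ _ _).1 this.symm
  have ha := count_aux q (q * r) X (by omega) (Nat.mul_pos (by omega) hr.pos) U
    (T.filter fun x => (q : ℤ) ∣ sg x) (red q) (by
      intro x hx
      rw [Finset.mem_filter] at hx
      obtain ⟨h1, h2, h3, h4⟩ := hT x hx.1
      refine ⟨h1, h2, ?_, h4⟩
      push_cast
      apply IsCoprime.mul_dvd _ hx.2 h3
      exact Nat.isCoprime_iff_coprime.2 ((Nat.coprime_primes hq.out hr).2 hqr.ne))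
    (fun x _ x' _ _ h => hred x x' h)
  set U1 := U.filter (fun u => sg u = 1) with hU1
  have hb := count_aux q r X (by omega) hr.pos U1
    (T.filter fun x => ¬ (q : ℤ) ∣ sg x) (fun x => (sg (red q x))⁻¹ • red q x) (by
      intro x hx
      rw [Finset.mem_filter] at hx
      obtain ⟨h1, h2, h3, h4⟩ := hT x hx.1
      refine ⟨h1, h2, h3, Finset.mem_filter.2 ⟨hU _ h4 _, ?_⟩⟩
      have h5 : sg (red q x) ≠ 0 := by
        rw [sg_red]
        exact fun h => hx.2 ((ZMod.intCast_zmod_eq_zero_iff_dvd _ _).1 h)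
      have : sg ((sg (red q x))⁻¹ • red q x) = (sg (red q x))⁻¹ * sg (red q x) := by
        simp only [sg, Pi.smul_apply, smul_eq_mul]
        ring
      rw [this, inv_mul_cancel₀ h5])
    (by
      intro x hx x' _ hs h
      rw [Finset.mem_filter] at hx
      have h5 : sg (red q x) ≠ 0 := by
        rw [sg_red]
        exact fun h => hx.2 ((ZMod.intCast_zmod_eq_zero_iff_dvd _ _).1 h)
      have h6 : sg (red q x') = sg (red q x) := by rw [sg_red, sg_red, hs]
      apply hred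
      simp only [h6] at h
      exact smul_right_injective _ (inv_ne_zero h5) h)
  have hU1c : U1.card * (q - 1) ≤ U.card := by
    have : (U1 ×ˢ (Finset.univ.erase (0 : ZMod q))).card = U1.card * (q - 1) := by
      rw [Finset.card_product, Finset.card_erase_of_mem (Finset.mem_univ _), Finset.card_univ,
        ZMod.card]
    rw [← this]
    apply Finset.card_le_card_of_injOn (fun p => p.2 • p.1)
    · intro p hp
      simp only [Finset.coe_product, Set.mem_prod, Finset.mem_coe] at hp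
      exact hU _ (Finset.mem_filter.1 hp.1).1 _
    · intro p hp p' hp' h
      simp only [Finset.coe_product, Set.mem_prod, Finset.mem_coe, Finset.mem_erase] at hp hp'
      have e1 := (Finset.mem_filter.1 hp.1).2
      have e2 := (Finset.mem_filter.1 hp'.1).2
      have e3 : p.2 = p'.2 := by
        have := congrArg sg h
        simp only [sg, Pi.smul_apply, smul_eq_mul] at this e1 e2
        linear_combination this - p.2 * e1 + p'.2 * e2
      refine Prod.ext ?_ e3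
      simp only [← e3] at h
      exact smul_right_injective _ hp.2.1 h
  have hU1q : U1.card * q ≤ 2 * U.card := by
    have : U1.card * q ≤ U1.card * (2 * (q - 1)) := Nat.mul_le_mul_left _ (by omega)
    nlinarith
  have hsplit := Finset.card_filter_add_card_filter_not (s := T) (fun x => (q : ℤ) ∣ sg x)
  rw [← hsplit, add_mul]
  have e1 : (T.filter fun x => (q : ℤ) ∣ sg x).card * (q ^ 3 * r) ≤ 150 * U.card * X ^ 3 := by
    calc _ = (T.filter fun x => (q : ℤ) ∣ sg x).card * (q * r * q ^ 2) := by ring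
      _ ≤ 6 * X * U.card * (2 * X + q) ^ 2 := ha
      _ ≤ 6 * X * U.card * (5 * X) ^ 2 := Nat.mul_le_mul_left _ hsq
      _ = _ := by ring
  have e2 : (T.filter fun x => ¬ (q : ℤ) ∣ sg x).card * (q ^ 3 * r) ≤ 300 * U.card * X ^ 3 := by
    calc _ = (T.filter fun x => ¬ (q : ℤ) ∣ sg x).card * (r * q ^ 2) * q := by ring
      _ ≤ 6 * X * U1.card * (2 * X + q) ^ 2 * q := Nat.mul_le_mul_right _ hb
      _ = 6 * X * (U1.card * q) * (2 * X + q) ^ 2 := by ring
      _ ≤ 6 * X * (2 * U.card) * (5 * X) ^ 2 := by gcongr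
      _ = _ := by ring
  nlinarith

/-- Singular integer matrices with constrained kernel. -/
lemma count_sing (L : AddSubgroup (Fin 3 → ℤ)) (k : ℕ) (hk : 0 < k)
    (hL : ∀ u ∈ L, ∀ v ∈ L, ∀ c, (k : ℤ) ∣ cr u v c) (B J : ℕ) (hJ : 18 * B ^ 2 < 2 ^ J)
    (q r : ℕ) [hq : Fact q.Prime] (hr : r.Prime) (hqr : q < r)
    (U : Finset (Fin 3 → ZMod q)) (hU : ∀ u ∈ U, ∀ a : ZMod q, a • u ∈ U)
    (A : Finset (Fin 3 → Fin 3 → ℤ))
    (hA : ∀ V ∈ A, (∀ c, sn (V c) ≤ B ∧ V c ∈ L) ∧ det3 V = 0 ∧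
      (∃ i j, sg (cr (V i) (V j)) ≠ 0) ∧
      ∀ x, (∀ c, dot (V c) x = 0) → red q x ∈ U ∧ (r : ℤ) ∣ sg x) :
    (A.card : ℝ) * ((q : ℝ) ^ 3 * r * (k : ℝ) ^ 3) ≤ 20995200 * J * (B : ℝ) ^ 6 * U.card := by
  classical
  have hex : ∀ V : Fin 3 → Fin 3 → ℤ, ∃ x : Fin 3 → ℤ, V ∈ A →
      ((∃ b, dot b x = 1) ∧ ∃ u ∈ slice L B x, ∃ v ∈ slice L B x, cr u v ≠ 0) ∧
      (∀ c, V c ∈ slice L B x) ∧ sg x ≠ 0 ∧ (r : ℤ) ∣ sg x ∧ red q x ∈ U := by
    intro V
    by_cases hV : V ∈ A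
    swap
    · exact ⟨0, fun h => absurd h hV⟩
    obtain ⟨h1, h2, ⟨i, j, h3⟩, h4⟩ := hA V hV
    have hne : cr (V i) (V j) ≠ 0 := by
      intro h
      rw [h] at h3
      simp [sg] at h3
    obtain ⟨x, b, m, hm, hb, hw⟩ := exists_prim _ hne
    have hd : ∀ c, dot (V c) x = 0 := fun c => dot_of_mul _ _ _ m hm hw (dot_cr_rows V h2 i j c)
    have hs : ∀ c, V c ∈ slice L B x := fun c => (mem_slice _ _ _ _).2 ⟨(h1 c).1, (h1 c).2, hd c⟩
    refine ⟨x, fun _ => ⟨⟨⟨b, hb⟩, V i, hs i, V j, hs j, hne⟩, hs, ?_, (h4 x hd).2, (h4 x hd).1⟩⟩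
    intro h0
    apply h3
    unfold sg at *
    rw [hw 0, hw 1, hw 2]
    linear_combination m * h0
  choose f hf using hex
  have h1 : A.card = ∑ x ∈ A.image f, (A.filter fun V => f V = x).card :=
    Finset.card_eq_sum_card_image f A
  have h2 : ∀ x ∈ A.image f, (A.filter fun V => f V = x).card ≤ (slice L B x).card ^ 3 := by
    intro x _
    have : (Fintype.piFinset fun _ : Fin 3 => slice L B x).card = (slice L B x).card ^ 3 := by
      rw [Fintype.card_piFinset]; simp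
    rw [← this]
    apply Finset.card_le_card
    intro V hV
    rw [Finset.mem_filter] at hV
    rw [Fintype.mem_piFinset, ← hV.2]
    exact (hf V hV.1).2.1
  have hq0 : (0 : ℝ) < q := by exact_mod_cast hq.out.pos
  have hr0 : (0 : ℝ) < r := by exact_mod_cast hr.pos
  have hk0 : (0 : ℝ) < k := by exact_mod_cast hk
  have h3 := sum_slices L k hk hL B J hJ (A.image f) (by
    intro x hx
    obtain ⟨V, hV, rfl⟩ := Finset.mem_image.1 hx
    exact (hf V hV).1) (450 * U.card / ((q : ℝ) ^ 3 * r)) (by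
    intro X _
    have e := count_ker q r hr hqr U hU X ((A.image f).filter fun x => sn x ≤ X) (by
      intro x hx
      rw [Finset.mem_filter] at hx
      obtain ⟨V, hV, rfl⟩ := Finset.mem_image.1 hx.1
      exact ⟨hx.2, (hf V hV).2.2⟩)
    rw [div_mul_eq_mul_div, le_div_iff₀ (by positivity)]
    exact_mod_cast e)
  have h4 : (A.card : ℝ) ≤ ∑ x ∈ A.image f, (((slice L B x).card : ℕ) : ℝ) ^ 3 := by
    have := Finset.sum_le_sum h2
    rw [← h1] at this
    exact_mod_cast this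
  rw [← le_div_iff₀ (by positivity)]
  refine h4.trans (h3.trans (le_of_eq ?_))
  field_simp
  ring

end Vale.Agent.P036
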