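import Mathlib

namespace Vale.Agent.P036

open Finset

variable {Ω : Type*} [Fintype Ω] [DecidableEq Ω]

lemma card_comp {m N : ℕ} (e : Fin m → Fin N) (he : Function.Injective e)
    (Bad : Finset (Fin m → Ω)) :
    (Finset.univ.filter fun f : Fin N → Ω => f ∘ e ∈ Bad).card * Fintype.card Ω ^ m
      ≤ Bad.card * Fintype.card Ω ^ N := by
  have h1 : ((Finset.univ.filter fun f : Fin N → Ω => f ∘ e ∈ Bad) ×ˢ
      (Finset.univ : Finset (Fin m → Ω))).card =
      (Finset.univ.filter fun f : Fin N → Ω => f ∘ e ∈ Bad).card * Fintype.card Ω ^ m := by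
    rw [Finset.card_product]; simp
  have h2 : (Bad ×ˢ (Finset.univ : Finset (Fin N → Ω))).card = Bad.card * Fintype.card Ω ^ N := by
    rw [Finset.card_product]; simp
  rw [← h1, ← h2]
  apply Finset.card_le_card_of_injOn (fun p => (p.1 ∘ e, Function.extend e p.2 p.1))
  · intro p hp
    have := Finset.mem_product.1 (Finset.mem_coe.1 hp)
    exact Finset.mem_coe.2 (Finset.mem_product.2
      ⟨(Finset.mem_filter.1 this.1).2, Finset.mem_univ _⟩)
  · intro p _ p' _ h
    simp only [Prod.mk.injEq] at h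
    obtain ⟨h1, h2⟩ := h
    refine Prod.ext ?_ ?_
    · funext i
      by_cases hi : ∃ a, e a = i
      · obtain ⟨a, rfl⟩ := hi
        exact congrFun h1 a
      · have := congrFun h2 i
        rwa [Function.extend_apply' _ _ _ hi, Function.extend_apply' _ _ _ hi] at this
    · funext a
      have := congrFun h2 (e a)
      rwa [he.extend_apply, he.extend_apply] at this

lemma sum_bad {m N : ℕ} (Bad : Finset (Fin m → Ω)) :
    (∑ f : Fin N → Ω, (Finset.univ.filter fun e : Fin m → Fin N =>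
      Function.Injective e ∧ f ∘ e ∈ Bad).card) * Fintype.card Ω ^ m
      ≤ N ^ m * Bad.card * Fintype.card Ω ^ N := by
  have h1 : (∑ f : Fin N → Ω, (Finset.univ.filter fun e : Fin m → Fin N =>
      Function.Injective e ∧ f ∘ e ∈ Bad).card) = ∑ e : Fin m → Fin N,
      (Finset.univ.filter fun f : Fin N → Ω => Function.Injective e ∧ f ∘ e ∈ Bad).card := by
    simp only [Finset.card_filter]
    exact Finset.sum_comm
  rw [h1, Finset.sum_mul]
  have h2 : ∀ e ∈ (Finset.univ : Finset (Fin m → Fin N)),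
      (Finset.univ.filter fun f : Fin N → Ω => Function.Injective e ∧ f ∘ e ∈ Bad).card
        * Fintype.card Ω ^ m ≤ Bad.card * Fintype.card Ω ^ N := by
    intro e _
    by_cases he : Function.Injective e
    · simp only [he, true_and]
      exact card_comp e he Bad
    · simp [he]
  refine (Finset.sum_le_card_nsmul _ _ _ h2).trans (le_of_eq ?_)
  simp [mul_assoc]

theorem deletion [Nonempty Ω] (B2 : Finset (Fin 2 → Ω)) (B3 : Finset (Fin 3 → Ω)) (n : ℕ)
    (h : (2 * n) ^ 2 * B2.card * Fintype.card Ω + (2 * n) ^ 3 * B3.card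
      ≤ n * Fintype.card Ω ^ 3) :
    ∃ f : Fin n → Ω, (∀ e : Fin 2 → Fin n, Function.Injective e → f ∘ e ∉ B2) ∧
      ∀ e : Fin 3 → Fin n, Function.Injective e → f ∘ e ∉ B3 := by
  have h2 := sum_bad (N := 2 * n) B2
  have h3 := sum_bad (N := 2 * n) B3
  have hc : 0 < Fintype.card Ω := Fintype.card_pos
  set S2 : (Fin (2 * n) → Ω) → Finset (Fin 2 → Fin (2 * n)) := fun f =>
    Finset.univ.filter fun e => Function.Injective e ∧ f ∘ e ∈ B2 with hS2
  set S3 : (Fin (2 * n) → Ω) → Finset (Fin 3 → Fin (2 * n)) := fun f =>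
    Finset.univ.filter fun e => Function.Injective e ∧ f ∘ e ∈ B3 with hS3
  have hsum : ∑ f, ((S2 f).card + (S3 f).card) ≤ ∑ _f : Fin (2 * n) → Ω, n := by
    rw [Finset.sum_add_distrib]
    simp only [Finset.sum_const, Finset.card_univ, Fintype.card_pi, Finset.prod_const,
      Fintype.card_fin, smul_eq_mul]
    apply Nat.le_of_mul_le_mul_right (c := Fintype.card Ω ^ 3) _ (by positivity)
    calc (∑ f, (S2 f).card + ∑ f, (S3 f).card) * Fintype.card Ω ^ 3
        = (∑ f, (S2 f).card) * Fintype.card Ω ^ 2 * Fintype.card Ω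
          + (∑ f, (S3 f).card) * Fintype.card Ω ^ 3 := by ring
      _ ≤ (2 * n) ^ 2 * B2.card * Fintype.card Ω ^ (2 * n) * Fintype.card Ω
          + (2 * n) ^ 3 * B3.card * Fintype.card Ω ^ (2 * n) :=
          Nat.add_le_add (Nat.mul_le_mul_right _ h2) h3
      _ = ((2 * n) ^ 2 * B2.card * Fintype.card Ω + (2 * n) ^ 3 * B3.card)
          * Fintype.card Ω ^ (2 * n) := by ring
      _ ≤ (n * Fintype.card Ω ^ 3) * Fintype.card Ω ^ (2 * n) := Nat.mul_le_mul_right _ h
      _ = _ := by ring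
  obtain ⟨f, -, hf⟩ := Finset.exists_le_of_sum_le Finset.univ_nonempty hsum
  set D : Finset (Fin (2 * n)) := (S2 f).image (fun e => e 0) ∪ (S3 f).image (fun e => e 0)
    with hD
  have hDc : D.card ≤ n := by
    have e1 := Finset.card_union_le ((S2 f).image (fun e => e 0)) ((S3 f).image (fun e => e 0))
    have e2 := Finset.card_image_le (s := S2 f) (f := fun e => e 0)
    have e3 := Finset.card_image_le (s := S3 f) (f := fun e => e 0)
    rw [hD]
    omega
  have hDc' : n ≤ Dᶜ.card := by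
    rw [Finset.card_compl, Fintype.card_fin]
    omega
  let g := Finset.orderEmbOfCardLe Dᶜ hDc'
  have hg : ∀ i, g i ∉ D := fun i =>
    Finset.mem_compl.1 (Finset.orderEmbOfCardLe_mem Dᶜ hDc' i)
  refine ⟨f ∘ g, fun e he hb => hg (e 0) ?_, fun e he hb => hg (e 0) ?_⟩
  · refine Finset.mem_union_left _ (Finset.mem_image.2 ⟨g ∘ e, ?_, rfl⟩)
    exact Finset.mem_filter.2 ⟨Finset.mem_univ _, g.injective.comp he, hb⟩
  · refine Finset.mem_union_right _ (Finset.mem_image.2 ⟨g ∘ e, ?_, rfl⟩)
    exact Finset.mem_filter.2 ⟨Finset.mem_univ _, g.injective.comp he, hb⟩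

end Vale.Agent.P036
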