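import Vale.Agent.P036.Basic

namespace Vale.Agent.P036

open Finset

section ring
variable {R : Type*} [CommRing R]

lemma dot_comm (a b : Fin 3 → R) : dot a b = dot b a := by
  unfold dot; ring

lemma dot_sub_left (a b c : Fin 3 → R) : dot (a - b) c = dot a c - dot b c := by
  simp only [dot, Pi.sub_apply]; ring

lemma dot_sub_right (a b c : Fin 3 → R) : dot c (a - b) = dot c a - dot c b := by
  simp only [dot, Pi.sub_apply]; ring

/-- Matrix times vector. -/
def mv (g : Fin 3 → Fin 3 → R) (x : Fin 3 → R) : Fin 3 → R := fun c => dot (g c) x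

lemma det3_mv (g p : Fin 3 → Fin 3 → R) : det3 (fun j => mv g (p j)) = det3 g * det3 p := by
  simp only [det3, mv, dot, cr0, cr1, cr2]
  ring

lemma eq_zero_of_det3 [IsDomain R] (p : Fin 3 → Fin 3 → R) (hp : det3 p ≠ 0) (d : Fin 3 → R)
    (h : ∀ j, dot d (p j) = 0) : d = 0 := by
  have h0 := h 0
  have h1 := h 1
  have h2 := h 2
  have key : ∀ k, det3 p * d k = 0 := by
    simp only [det3, dot, cr0, cr1, cr2] at *
    refine forall3 ?_ ?_ ?_
    · linear_combination (p 1 1 * p 2 2 - p 1 2 * p 2 1) * h0 + (p 2 1 * p 0 2 - p 2 2 * p 0 1) * h1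
        + (p 0 1 * p 1 2 - p 0 2 * p 1 1) * h2
    · linear_combination (p 1 2 * p 2 0 - p 1 0 * p 2 2) * h0 + (p 2 2 * p 0 0 - p 2 0 * p 0 2) * h1
        + (p 0 2 * p 1 0 - p 0 0 * p 1 2) * h2
    · linear_combination (p 1 0 * p 2 1 - p 1 1 * p 2 0) * h0 + (p 2 0 * p 0 1 - p 2 1 * p 0 0) * h1
        + (p 0 0 * p 1 1 - p 0 1 * p 1 0) * h2
  funext k
  exact (mul_eq_zero.1 (key k)).resolve_left hp

lemma eq_of_det3 [IsDomain R] (p : Fin 3 → Fin 3 → R) (hp : det3 p ≠ 0) (d d' : Fin 3 → R)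
    (h : ∀ j, dot d (p j) = dot d' (p j)) : d = d' := by
  apply sub_eq_zero.1
  apply eq_zero_of_det3 p hp
  intro j
  rw [dot_sub_left, h j, sub_self]

/-- The matrix has a nonzero two by two minor. -/
def Rk2 (Y : Fin 3 → Fin 3 → R) : Prop := ∃ i j, cr (Y i) (Y j) ≠ 0

lemma Rk2.transpose {Y : Fin 3 → Fin 3 → R} (h : Rk2 Y) : Rk2 fun i j => Y j i := by
  obtain ⟨i, j, h⟩ := h
  rw [Ne, cr_eq_zero_iff] at h
  push Not at h
  obtain ⟨k, l, h⟩ := h
  refine ⟨k, l, fun h' => h ?_⟩
  have := (cr_eq_zero_iff _ _).1 h' i j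
  linear_combination this

end ring

variable {F : Type*} [Field F] [Fintype F] [DecidableEq F]

lemma card_dot1 (a : Fin 3 → F) (c : F) (ha : a ≠ 0) :
    (Finset.univ.filter fun y => dot y a = c).card ≤ Fintype.card F ^ 2 := by
  have hc : (Finset.univ : Finset (F × F)).card = Fintype.card F ^ 2 := by
    simp [pow_two]
  rw [← hc]
  obtain ⟨l, hl⟩ : ∃ l, a l ≠ 0 := by
    by_contra h
    push Not at h
    exact ha (funext h)
  revert l
  refine forall3 (fun hl => ?_) (fun hl => ?_) (fun hl => ?_)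
  · apply Finset.card_le_card_of_injOn (fun y => (y 1, y 2)) (by simp)
    intro y hy y' hy' h
    replace hy := (Finset.mem_filter.1 (Finset.mem_coe.1 hy)).2
    replace hy' := (Finset.mem_filter.1 (Finset.mem_coe.1 hy')).2
    simp only [dot, Prod.mk.injEq] at hy hy' h
    refine ext3 (mul_right_cancel₀ hl ?_) h.1 h.2
    linear_combination hy - hy' - a 1 * h.1 - a 2 * h.2
  · apply Finset.card_le_card_of_injOn (fun y => (y 0, y 2)) (by simp)
    intro y hy y' hy' h
    replace hy := (Finset.mem_filter.1 (Finset.mem_coe.1 hy)).2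
    replace hy' := (Finset.mem_filter.1 (Finset.mem_coe.1 hy')).2
    simp only [dot, Prod.mk.injEq] at hy hy' h
    refine ext3 h.1 (mul_right_cancel₀ hl ?_) h.2
    linear_combination hy - hy' - a 0 * h.1 - a 2 * h.2
  · apply Finset.card_le_card_of_injOn (fun y => (y 0, y 1)) (by simp)
    intro y hy y' hy' h
    replace hy := (Finset.mem_filter.1 (Finset.mem_coe.1 hy)).2
    replace hy' := (Finset.mem_filter.1 (Finset.mem_coe.1 hy')).2
    simp only [dot, Prod.mk.injEq] at hy hy' h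
    refine ext3 h.1 h.2 (mul_right_cancel₀ hl ?_)
    linear_combination hy - hy' - a 0 * h.1 - a 1 * h.2

lemma card_dot1' (a : Fin 3 → F) (c : F) (hc : c ≠ 0) :
    (Finset.univ.filter fun y => dot y a = c).card ≤ Fintype.card F ^ 2 := by
  by_cases ha : a = 0
  · subst ha
    rw [Finset.filter_eq_empty_iff.2]
    · simp
    · intro y _ h
      apply hc
      rw [← h]
      simp [dot]
  · exact card_dot1 a c ha

lemma card_dot2 (a b : Fin 3 → F) (c d : F) (h : cr a b ≠ 0) :
    (Finset.univ.filter fun y => dot y a = c ∧ dot y b = d).card ≤ Fintype.card F := by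
  obtain ⟨l, hl⟩ : ∃ l, cr a b l ≠ 0 := by
    by_contra h'
    push Not at h'
    exact h (funext h')
  rw [← Finset.card_univ]
  apply Finset.card_le_card_of_injOn (fun y => y l) (by simp)
  intro y hy y' hy' e
  simp only [Finset.coe_filter, Finset.mem_univ, true_and, Set.mem_ofPred_eq] at hy hy' e
  have h1 : dot (y - y') a = 0 := by rw [dot_sub_left, hy.1, hy'.1, sub_self]
  have h2 : dot (y - y') b = 0 := by rw [dot_sub_left, hy.2, hy'.2, sub_self]
  have h3 : cr (y - y') (cr a b) = 0 := by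
    generalize y - y' = u at *
    simp only [dot] at h1 h2
    refine ext3 ?_ ?_ ?_ <;> simp only [cr0, cr1, cr2, Pi.zero_apply]
    · linear_combination a 0 * h2 - b 0 * h1
    · linear_combination a 1 * h2 - b 1 * h1
    · linear_combination a 2 * h2 - b 2 * h1
  funext k
  have h4 := (cr_eq_zero_iff _ _).1 h3 k l
  simp only [Pi.sub_apply, e, sub_self, zero_mul] at h4
  exact sub_eq_zero.1 ((mul_eq_zero.1 h4).resolve_right hl)

/-- Determinant one matrices sending the columns `p j` to prescribed columns. -/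
def stab (p X : Fin 3 → Fin 3 → F) : Finset (Fin 3 → Fin 3 → F) :=
  Finset.univ.filter fun g => det3 g = 1 ∧ ∀ j, mv g (p j) = X j

lemma mem_stab (p X g : Fin 3 → Fin 3 → F) :
    g ∈ stab p X ↔ det3 g = 1 ∧ ∀ j, mv g (p j) = X j := by
  simp [stab]

lemma eq_of_mv (p : Fin 3 → Fin 3 → F) (hp : det3 p ≠ 0) (g g' : Fin 3 → Fin 3 → F)
    (h : ∀ j, mv g (p j) = mv g' (p j)) : g = g' := by
  funext c
  exact eq_of_det3 p hp _ _ fun j => congrFun (h j) c

lemma card_stab3 (p X : Fin 3 → Fin 3 → F) (hp : det3 p ≠ 0) : (stab p X).card ≤ 1 := by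
  rw [Finset.card_le_one]
  intro g hg g' hg'
  rw [mem_stab] at hg hg'
  exact eq_of_mv p hp g g' fun j => by rw [hg.2 j, hg'.2 j]

lemma card_stab2 (p X : Fin 3 → Fin 3 → F) (hp : Rk2 p) :
    (stab p X).card ≤ Fintype.card F ^ 2 := by
  obtain ⟨j, k, h⟩ := hp
  have hd : dot (cr (p j) (p k)) (cr (p j) (p k)) = dot (cr (p j) (p k)) (cr (p j) (p k)) := rfl
  obtain ⟨e, he⟩ : ∃ e, dot e (cr (p j) (p k)) ≠ 0 := by
    by_contra h'
    push Not at h'
    apply h
    refine ext3 ?_ ?_ ?_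
    · simpa [dot] using h' ![1, 0, 0]
    · simpa [dot] using h' ![0, 1, 0]
    · simpa [dot] using h' ![0, 0, 1]
  refine le_trans ?_ (card_dot1' (cr (X j) (X k)) _ he)
  apply Finset.card_le_card_of_injOn (fun g => mv g e)
  · intro g hg
    have hg' := (mem_stab _ _ _).1 hg
    simp only [Finset.coe_filter, Finset.mem_univ, true_and, Set.mem_ofPred_eq]
    have := det3_mv g ![e, p j, p k]
    rw [hg'.1, one_mul] at this
    rw [← hg'.2 j, ← hg'.2 k]
    exact this
  · intro g hg g' hg' h'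
    have h1 := (mem_stab _ _ _).1 hg
    have h2 := (mem_stab _ _ _).1 hg'
    apply eq_of_mv ![e, p j, p k] he
    refine forall3 h' ?_ ?_
    · exact (h1.2 j).trans (h2.2 j).symm
    · exact (h1.2 k).trans (h2.2 k).symm

lemma card_stab1 (p X : Fin 3 → Fin 3 → F) (hp : p 0 0 ≠ 0) :
    (stab p X).card ≤ Fintype.card F ^ 5 := by
  have hdet : det3 ![![0, 0, 1], p 0, ![0, 1, 0]] = p 0 0 := by
    simp [det3, dot]
  have hc : ((Finset.univ : Finset (Fin 3 → F)).sigma fun w =>
      Finset.univ.filter fun y => dot y (cr (X 0) w) = p 0 0).card ≤ Fintype.card F ^ 5 := by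
    rw [Finset.card_sigma]
    refine (Finset.sum_le_card_nsmul _ _ _ fun w _ => card_dot1' _ _ hp).trans (le_of_eq ?_)
    simp only [Finset.card_univ, Fintype.card_pi, Finset.prod_const, Fintype.card_fin, smul_eq_mul]
    ring
  refine le_trans ?_ hc
  apply Finset.card_le_card_of_injOn
    (fun g => (⟨mv g ![0, 1, 0], mv g ![0, 0, 1]⟩ : Σ _ : Fin 3 → F, Fin 3 → F))
  · intro g hg
    have hg' := (mem_stab _ _ _).1 hg
    simp only [Finset.coe_sigma, Set.mem_sigma_iff, Finset.coe_univ, Set.mem_univ,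
      Finset.coe_filter, Finset.mem_univ, true_and, Set.mem_ofPred_eq]
    have := det3_mv g ![![0, 0, 1], p 0, ![0, 1, 0]]
    rw [hg'.1, one_mul, hdet] at this
    rw [← hg'.2 0]
    exact this
  · intro g hg g' hg' h'
    have h1 := (mem_stab _ _ _).1 hg
    have h2 := (mem_stab _ _ _).1 hg'
    simp only [Sigma.mk.injEq, heq_eq_eq] at h'
    apply eq_of_mv ![![0, 0, 1], p 0, ![0, 1, 0]] (by rw [hdet]; exact hp)
    refine forall3 h'.2 ?_ h'.1
    exact (h1.2 0).trans (h2.2 0).symm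

lemma card_SL : (Fintype.card F - 1) ^ 2 * Fintype.card F ^ 6 ≤
    (Finset.univ.filter fun g : Fin 3 → Fin 3 → F => det3 g = 1).card := by
  have hc : (((Finset.univ.erase (0 : F)) ×ˢ (Finset.univ.erase (0 : F))) ×ˢ
      (Finset.univ : Finset (Fin 6 → F))).card
      = (Fintype.card F - 1) ^ 2 * Fintype.card F ^ 6 := by
    rw [Finset.card_product, Finset.card_product,
      Finset.card_erase_of_mem (Finset.mem_univ _)]
    simp [pow_two]
  rw [← hc]
  apply Finset.card_le_card_of_injOn (fun p : (F × F) × (Fin 6 → F) =>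
    ![![p.1.1, p.2 0, p.2 1], ![p.2 2, (p.1.2 + p.2 0 * p.2 2) / p.1.1, p.2 3],
      ![p.2 4, p.2 5, (1 - p.2 4 * (p.2 0 * p.2 3 - p.2 1 * ((p.1.2 + p.2 0 * p.2 2) / p.1.1))
        - p.2 5 * (p.2 1 * p.2 2 - p.1.1 * p.2 3)) / p.1.2]])
  · rintro ⟨⟨a, m⟩, z⟩ hp
    simp only [Finset.coe_product, Set.mem_prod, Finset.mem_coe, Finset.mem_erase] at hp
    have ha : a ≠ 0 := hp.1.1.1
    have hm : m ≠ 0 := hp.1.2.1
    refine Finset.mem_coe.2 (Finset.mem_filter.2 ⟨Finset.mem_univ _, ?_⟩)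
    simp only [det3, dot, cr0,
      cr1, cr2, Matrix.cons_val_zero, Matrix.cons_val_one, Matrix.cons_val]
    field_simp
    ring
  · rintro ⟨⟨a, m⟩, z⟩ hp ⟨⟨a', m'⟩, z'⟩ hp' h
    simp only [Finset.coe_product, Set.mem_prod, Finset.mem_coe, Finset.mem_erase] at hp hp'
    have ha : a ≠ 0 := hp.1.1.1
    have e00 := congrFun (congrFun h 0) 0
    have e01 := congrFun (congrFun h 0) 1
    have e02 := congrFun (congrFun h 0) 2
    have e10 := congrFun (congrFun h 1) 0
    have e11 := congrFun (congrFun h 1) 1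
    have e12 := congrFun (congrFun h 1) 2
    have e20 := congrFun (congrFun h 2) 0
    have e21 := congrFun (congrFun h 2) 1
    simp only [Matrix.cons_val_zero, Matrix.cons_val_one,
      Matrix.cons_val] at e00 e01 e02 e10 e11 e12 e20 e21
    subst e00
    rw [e01, e10, div_left_inj' ha, add_left_inj] at e11
    subst e11
    congr 1
    funext i
    fin_cases i
    · exact e01
    · exact e02
    · exact e10
    · exact e12
    · exact e20
    · exact e21

/-- Vectors with nonzero first coordinate. -/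
def nz0 (F : Type*) [Field F] [Fintype F] [DecidableEq F] : Finset (Fin 3 → F) :=
  Finset.univ.filter fun f => f 0 ≠ 0

lemma card_nz0 : Fintype.card F ^ 3 ≤ 2 * (nz0 F).card := by
  have h1 := card_dot1 (F := F) ![1, 0, 0] 0 (by
    intro h
    simpa using congrFun h 0)
  have h2 := Finset.card_filter_add_card_filter_not (s := (Finset.univ : Finset (Fin 3 → F)))
    (fun y => dot y ![1, 0, 0] = 0)
  have h3 : (Finset.univ.filter fun y : Fin 3 → F => ¬ dot y ![1, 0, 0] = 0) = nz0 F := by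
    ext y
    simp [nz0, dot]
  rw [h3] at h2
  simp only [Finset.card_univ, Fintype.card_pi, Finset.prod_const, Fintype.card_fin] at h2
  have h4 : 2 ≤ Fintype.card F := Fintype.one_lt_card
  have h5 : 2 * Fintype.card F ^ 2 ≤ Fintype.card F ^ 3 := by
    calc 2 * Fintype.card F ^ 2 ≤ Fintype.card F * Fintype.card F ^ 2 := Nat.mul_le_mul_right _ h4
      _ = _ := by ring
  omega

/-- Functionals equal to one on three given vectors. -/
def ones (X : Fin 3 → Fin 3 → F) : Finset (Fin 3 → F) :=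
  Finset.univ.filter fun f => ∀ j, dot f (X j) = 1

lemma mem_ones (X : Fin 3 → Fin 3 → F) (f : Fin 3 → F) : f ∈ ones X ↔ ∀ j, dot f (X j) = 1 := by
  simp [ones]

lemma card_ones3 (X : Fin 3 → Fin 3 → F) (h : det3 X ≠ 0) : (ones X).card ≤ 1 := by
  rw [Finset.card_le_one]
  intro g hg g' hg'
  rw [mem_ones] at hg hg'
  exact eq_of_det3 X h g g' fun j => by rw [hg j, hg' j]

lemma card_ones2 (X : Fin 3 → Fin 3 → F) (h : Rk2 X) : (ones X).card ≤ Fintype.card F := by
  obtain ⟨i, j, h⟩ := h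
  refine le_trans (Finset.card_le_card ?_) (card_dot2 (X i) (X j) 1 1 h)
  intro f hf
  rw [mem_ones] at hf
  simp [hf]

lemma card_ones1 (X : Fin 3 → Fin 3 → F) : (ones X).card ≤ Fintype.card F ^ 2 := by
  refine le_trans (Finset.card_le_card ?_) (card_dot1' (X 0) 1 one_ne_zero)
  intro f hf
  rw [mem_ones] at hf
  simp [hf]

/-- A point of the paraboloid. -/
def cp (n : F) (a : F × F) : Fin 3 → F := ![a.1 ^ 2 - n * a.2 ^ 2, a.1, a.2]

omit [Fintype F] [DecidableEq F] in
lemma cap_cr (n : F) (hn : ¬ IsSquare n) (a b c : F × F) (hab : a ≠ b) (hac : a ≠ c)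
    (hbc : b ≠ c) : cr (cp n b - cp n a) (cp n c - cp n a) ≠ 0 := by
  intro h
  obtain ⟨a1, a2⟩ := a
  obtain ⟨u1, u2, rfl⟩ : ∃ u1 u2, b = (a1 + u1, a2 + u2) := ⟨b.1 - a1, b.2 - a2, by simp⟩
  obtain ⟨v1, v2, rfl⟩ : ∃ u1 u2, c = (a1 + u1, a2 + u2) := ⟨c.1 - a1, c.2 - a2, by simp⟩
  have h0 := congrFun h 0
  have h1 := congrFun h 1
  have h2 := congrFun h 2
  simp only [cp, cr0, cr1, cr2, Pi.sub_apply, Pi.zero_apply, Matrix.cons_val_zero,
    Matrix.cons_val_one, Matrix.cons_val] at h0 h1 h2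
  have hQ : u1 ^ 2 - n * u2 ^ 2 ≠ 0 := by
    intro hQ
    by_cases hu2 : u2 = 0
    · subst hu2
      have : u1 = 0 := by simpa using hQ
      subst this
      simp at hab
    · apply hn
      refine ⟨u1 / u2, ?_⟩
      field_simp
      linear_combination -hQ
  obtain ⟨t, ht1, ht2⟩ : ∃ t, v1 = t * u1 ∧ v2 = t * u2 := by
    by_cases hu1 : u1 = 0
    · have hu2 : u2 ≠ 0 := by
        rintro rfl
        simp [hu1] at hQ
      refine ⟨v2 / u2, ?_, by field_simp⟩
      subst hu1
      have : u2 * v1 = 0 := by linear_combination -h0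
      simpa [hu2] using this
    · refine ⟨v1 / u1, by field_simp, ?_⟩
      field_simp
      linear_combination h0
  subst ht1 ht2
  have ht0 : t ≠ 0 := by
    rintro rfl
    simp at hac
  have ht1 : t - 1 ≠ 0 := by
    intro h
    have : t = 1 := by linear_combination h
    subst this
    simp at hbc
  have e1 : t * (t - 1) * (u1 ^ 2 - n * u2 ^ 2) * u2 = 0 := by linear_combination h1
  have e2 : t * (t - 1) * (u1 ^ 2 - n * u2 ^ 2) * u1 = 0 := by linear_combination -h2
  have e3 := mul_ne_zero (mul_ne_zero ht0 ht1) hQ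
  have f1 := (mul_eq_zero.1 e1).resolve_left e3
  have f2 := (mul_eq_zero.1 e2).resolve_left e3
  simp [f1, f2] at hQ

/-- Parameters of the sheared paraboloid passing through three given points. -/
def caps (n : F) (a : Fin 3 → F × F) (X : Fin 3 → F) : Finset ((Fin 3 → F) × F) :=
  Finset.univ.filter fun m => ∀ j, dot m.1 (cp n (a j)) + m.2 = X j

lemma card_caps (n : F) (hn : ¬ IsSquare n) (a : Fin 3 → F × F) (ha : Function.Injective a)
    (X : Fin 3 → F) : (caps n a X).card ≤ Fintype.card F := by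
  have h := cap_cr n hn (a 0) (a 1) (a 2) (ha.ne (by decide)) (ha.ne (by decide))
    (ha.ne (by decide))
  refine le_trans ?_ (card_dot2 _ _ (X 1 - X 0) (X 2 - X 0) h)
  apply Finset.card_le_card_of_injOn (fun m => m.1)
  · intro m hm
    simp only [caps, Finset.coe_filter, Finset.mem_univ, true_and, Set.mem_ofPred_eq] at hm ⊢
    rw [dot_sub_right, dot_sub_right]
    exact ⟨by linear_combination hm 1 - hm 0, by linear_combination hm 2 - hm 0⟩
  · intro m hm m' hm' e
    simp only [caps, Finset.coe_filter, Finset.mem_univ, true_and, Set.mem_ofPred_eq] at hm hm' e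
    refine Prod.ext e ?_
    have e1 := hm 0
    have e2 := hm' 0
    rw [e] at e1
    linear_combination e1 - e2

omit [Fintype F] [DecidableEq F] in
lemma cap_rows (n : F) (hn : ¬ IsSquare n) (a : Fin 3 → F × F) (ha : Function.Injective a)
    (m : Fin 3 → F) (m3 : F) (hm : m 0 ≠ 0) (Y : Fin 3 → Fin 3 → F)
    (h0 : ∀ j, Y 0 j = dot m (cp n (a j)) + m3) (h1 : ∀ j, Y 1 j = (a j).1)
    (h2 : ∀ j, Y 2 j = (a j).2) : ∃ i j, sg (cr (Y i) (Y j)) ≠ 0 := by
  by_contra hc
  push Not at hc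
  apply cap_cr n hn (a 0) (a 1) (a 2) (ha.ne (by decide)) (ha.ne (by decide))
    (ha.ne (by decide))
  have e0 := hc 1 2
  have e1 := hc 2 0
  have e2 := hc 0 1
  simp only [sg, cr0, cr1, cr2, h0, h1, h2, dot, cp, Matrix.cons_val_zero, Matrix.cons_val_one,
    Matrix.cons_val] at e0 e1 e2
  refine ext3 ?_ (mul_left_cancel₀ hm ?_) (mul_left_cancel₀ hm ?_) <;>
    simp only [cp, cr0, cr1, cr2, Pi.sub_apply, Pi.zero_apply, Matrix.cons_val_zero,
      Matrix.cons_val_one, Matrix.cons_val]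
  · linear_combination e0
  · linear_combination e1 + m 1 * e0
  · linear_combination e2 + m 2 * e0

end Vale.Agent.P036
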