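import Vale.Agent.P036.Tensor

namespace Vale.Agent.P036

open Finset

lemma digits {ι : Type*} (I : Finset ι) (a : ι → ℤ) (e : ι → ℕ) (P : ℤ) (E : ℕ) (hP : 1 ≤ P)
    (he : ∀ i, e i ≤ 3 * E) (B : ℤ) (hB : ∑ i ∈ I, |a i| ≤ B) :
    ∃ H L : ℤ, ∑ i ∈ I, a i * P ^ e i
        = H * P ^ (E + 1) + (∑ i ∈ I, if e i = E then a i else 0) * P ^ E + L ∧
      |H| ≤ B * P ^ (3 * E) ∧ P * |L| ≤ B * P ^ E := by
  refine ⟨∑ i ∈ I, if E < e i then a i * P ^ (e i - (E + 1)) else 0,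
    ∑ i ∈ I, if e i < E then a i * P ^ e i else 0, ?_, ?_, ?_⟩
  · simp only [Finset.sum_mul, ← Finset.sum_add_distrib]
    refine Finset.sum_congr rfl fun i _ => ?_
    rcases lt_trichotomy (e i) E with h | h | h
    · rw [if_neg (by omega), if_neg (by omega), if_pos h]
      ring
    · rw [if_neg (by omega), if_pos h, if_neg (by omega), h]
      ring
    · rw [if_pos h, if_neg (by omega), if_neg (by omega), mul_assoc, ← pow_add,
        Nat.sub_add_cancel (by omega)]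
      ring
  · refine (Finset.abs_sum_le_sum_abs _ _).trans ?_
    refine le_trans ?_ (mul_le_mul_of_nonneg_right hB (by positivity))
    rw [Finset.sum_mul]
    refine Finset.sum_le_sum fun i _ => ?_
    split_ifs with h
    · rw [abs_mul, abs_of_nonneg (by positivity : (0 : ℤ) ≤ P ^ (e i - (E + 1)))]
      exact mul_le_mul_of_nonneg_left (pow_le_pow_right₀ hP (by have := he i; omega))
        (abs_nonneg _)
    · rw [abs_zero]
      positivity
  · refine (mul_le_mul_of_nonneg_left (Finset.abs_sum_le_sum_abs _ _) (by omega)).trans ?_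
    refine le_trans ?_ (mul_le_mul_of_nonneg_right hB (by positivity))
    rw [Finset.sum_mul, Finset.mul_sum]
    refine Finset.sum_le_sum fun i _ => ?_
    split_ifs with h
    · rw [abs_mul, abs_of_nonneg (by positivity : (0 : ℤ) ≤ P ^ (e i))]
      have : P ^ (e i + 1) ≤ P ^ E := pow_le_pow_right₀ hP (by omega)
      calc P * (|a i| * P ^ e i) = |a i| * P ^ (e i + 1) := by ring
        _ ≤ _ := mul_le_mul_of_nonneg_left this (abs_nonneg _)
    · rw [abs_zero, mul_zero]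
      positivity

lemma abs_mul3 (x y z A B C : ℤ) (hx : |x| ≤ A) (hy : |y| ≤ B) (hz : |z| ≤ C) :
    |x * y * z| ≤ A * B * C := by
  rw [abs_mul, abs_mul]
  have h1 := abs_nonneg x
  have h2 := abs_nonneg y
  have h3 := abs_nonneg z
  exact mul_le_mul (mul_le_mul hx hy h2 (by linarith)) hz h3
    (mul_nonneg (by linarith) (by linarith))

lemma abs_det3_le (y : Fin 3 → Fin 3 → ℤ) (A : ℤ) (h : ∀ j c, |y j c| ≤ A) :
    |det3 y| ≤ 6 * A ^ 3 := by
  have k := fun a b c => abs_le.1 (abs_mul3 _ _ _ _ _ _ (h 0 a) (h 1 b) (h 2 c))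
  have k1 := k 0 1 2
  have k2 := k 0 2 1
  have k3 := k 1 2 0
  have k4 := k 1 0 2
  have k5 := k 2 0 1
  have k6 := k 2 1 0
  simp only [det3, dot, cr0, cr1, cr2]
  rw [abs_le]
  constructor <;> nlinarith

lemma abs_pert3 (x y z a b c A Z : ℤ) (hx : |x| ≤ A) (hy : |y| ≤ A) (hz : |z| ≤ A)
    (ha : |a| ≤ Z) (hb : |b| ≤ Z) (hc : |c| ≤ Z) (hZ : Z ≤ A) :
    |(x + a) * (y + b) * (z + c) - x * y * z| ≤ 7 * (Z * A * A) := by
  have k1 := abs_le.1 (abs_mul3 _ _ _ _ _ _ ha hy hz)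
  have k2 := abs_le.1 (abs_mul3 _ _ _ _ _ _ hb hx hz)
  have k3 := abs_le.1 (abs_mul3 _ _ _ _ _ _ hc hx hy)
  have k4 := abs_le.1 (abs_mul3 _ _ _ _ _ _ ha (hb.trans hZ) hz)
  have k5 := abs_le.1 (abs_mul3 _ _ _ _ _ _ ha (hc.trans hZ) hy)
  have k6 := abs_le.1 (abs_mul3 _ _ _ _ _ _ hb (hc.trans hZ) hx)
  have k7 := abs_le.1 (abs_mul3 _ _ _ _ _ _ ha (hb.trans hZ) (hc.trans hZ))
  rw [abs_le]
  constructor <;> nlinarith

lemma abs_det3_pert (y z : Fin 3 → Fin 3 → ℤ) (A Z : ℤ) (h : ∀ j c, |y j c| ≤ A)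
    (hz : ∀ j c, |z j c| ≤ Z) (hZ : Z ≤ A) :
    |det3 (fun j => y j + z j) - det3 y| ≤ 42 * (Z * A * A) := by
  have k := fun a b c => abs_le.1 (abs_pert3 _ _ _ _ _ _ _ _ (h 0 a) (h 1 b) (h 2 c)
    (hz 0 a) (hz 1 b) (hz 2 c) hZ)
  have k1 := k 0 1 2
  have k2 := k 0 2 1
  have k3 := k 1 2 0
  have k4 := k 1 0 2
  have k5 := k 2 0 1
  have k6 := k 2 1 0
  simp only [det3, dot, cr0, cr1, cr2, Pi.add_apply]
  rw [abs_le]
  constructor <;> nlinarith

lemma det3_expand {k : ℕ} (g : Fin k → Fin 3 → Fin 3 → ℤ) :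
    det3 (fun j c => ∑ i, g i j c) = ∑ i : Fin k × Fin k × Fin k,
      det3 (fun j => ![g i.1 j 0, g i.2.1 j 1, g i.2.2 j 2]) := by
  have h3 : ∀ a b c : Fin k → ℤ, (∑ i, a i) * (∑ i, b i) * (∑ i, c i)
      = ∑ i : Fin k × Fin k × Fin k, a i.1 * b i.2.1 * c i.2.2 := by
    intro a b c
    rw [mul_assoc, Finset.sum_mul_sum, Finset.sum_mul, Fintype.sum_prod_type]
    refine Finset.sum_congr rfl fun i _ => ?_
    rw [Fintype.sum_prod_type, Finset.mul_sum]
    refine Finset.sum_congr rfl fun j _ => ?_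
    rw [Finset.mul_sum]
    refine Finset.sum_congr rfl fun l _ => ?_
    ring
  have e : ∀ y : Fin 3 → Fin 3 → ℤ, det3 y = y 0 0 * y 1 1 * y 2 2 - y 0 0 * y 2 1 * y 1 2
      + y 2 0 * y 0 1 * y 1 2 - y 1 0 * y 0 1 * y 2 2 + y 1 0 * y 2 1 * y 0 2
      - y 2 0 * y 1 1 * y 0 2 := by
    intro y
    simp only [det3, dot, cr0, cr1, cr2]
    ring
  simp only [e, h3, ← Finset.sum_add_distrib, ← Finset.sum_sub_distrib, Matrix.cons_val_zero,
    Matrix.cons_val_one, Matrix.cons_val]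

lemma far_of (q m G err ρ H Δ δ P PE : ℤ) (hP : 1 ≤ P) (hm : 0 ≤ m)
    (hq : q = m * (P * PE) + ρ) (hρ0 : 0 ≤ ρ) (hρ : 3 * ρ ≤ q)
    (hG1 : 3 * PE ≤ 4 * |G|) (hG2 : 2 * |G| ≤ P * PE) (hΔ : Δ = H * (P * PE) + G)
    (herr : 4 * P * (|H| * ρ + |err|) ≤ q) (hδ : q ∣ δ - (m * Δ + err)) : q ≤ 4 * P * |δ| := by
  obtain ⟨j, hj⟩ := hδ
  have h1 : δ = m * G + (err - H * ρ) + q * (j + H) := by
    rw [hΔ] at hj
    rw [hq] at hj ⊢
    linear_combination hj
  have h2 : |err - H * ρ| ≤ |H| * ρ + |err| := by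
    calc |err - H * ρ| ≤ |err| + |H * ρ| := abs_sub _ _
      _ = _ := by rw [abs_mul, abs_of_nonneg hρ0]; ring
  generalize err - H * ρ = η at h1 h2
  have h3 : 4 * P * |η| ≤ q := le_trans (mul_le_mul_of_nonneg_left h2 (by linarith)) herr
  have hq0 : 0 ≤ q := by linarith
  have h4 : |m * G| = m * |G| := by rw [abs_mul, abs_of_nonneg hm]
  by_cases hjH : j + H = 0
  · rw [hjH, mul_zero, add_zero] at h1
    have h5 : m * |G| ≤ |δ| + |η| := by
      rw [← h4, show m * G = δ - η by linarith]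
      exact abs_sub _ _
    have h6 : m * P * (3 * PE) ≤ m * P * (4 * |G|) :=
      mul_le_mul_of_nonneg_left hG1 (mul_nonneg hm (by linarith))
    have h7 : 4 * P * (m * |G|) ≤ 4 * P * (|δ| + |η|) :=
      mul_le_mul_of_nonneg_left h5 (by linarith)
    nlinarith
  · have h5 : q ≤ |q * (j + H)| := by
      rw [abs_mul, abs_of_nonneg hq0]
      have : 1 ≤ |j + H| := Int.one_le_abs hjH
      nlinarith
    have h6 : |q * (j + H)| ≤ |δ| + m * |G| + |η| := by
      rw [← h4, show q * (j + H) = δ - m * G - η by linarith]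
      calc _ ≤ |δ - m * G| + |η| := abs_sub _ _
        _ ≤ _ := by linarith [abs_sub δ (m * G)]
    have h7 : m * (2 * |G|) ≤ m * (P * PE) := mul_le_mul_of_nonneg_left hG2 hm
    have h8 : q ≤ 2 * (|δ| + |η|) := by linarith
    have h9 : 2 * P * q ≤ 2 * P * (2 * (|δ| + |η|)) := mul_le_mul_of_nonneg_left h8 (by linarith)
    nlinarith

set_option maxHeartbeats 1000000 in
theorem residues_core (k l s P E Z U W q u2 : ℕ) [Fact l.Prime] (hk : 0 < k)
    (f : Fin k → Fin s → Fin 3 → ZMod l)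
    (hf : ∀ t : Fin 3 → Fin s, Function.Injective t → ∑ i, det3 (fun j => f i (t j)) ≠ 0)
    (hP1 : 24 * (k * l) ^ 3 ≤ P) (hP2 : 1344 ≤ P) (hP3 : s ≤ P ^ 2) (hP4 : k * l ≤ P)
    (hE : E = (k + 1) * k) (hZ : Z = P ^ (4 * E + 13)) (hU : U = P ^ (5 * E + 16))
    (hW : W = U ^ 2 * P ^ (E + 1)) (hu2 : u2 = q / W)
    (hq1 : P ^ (16 * E + 49) < q) (hq2 : q ≤ 2 * P ^ (16 * E + 49)) :
    ∃ (base : Fin s → Fin 3 → ℤ), 0 < Z ∧ Z ≤ q ∧
      s * q ≤ Z ^ 4 ∧ (∀ t (z : ℤ), 1 ≤ z → z ≤ Z → 0 < base t 0 + z ∧ base t 0 + z < q) ∧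
      ∀ t : Fin 3 → Fin s, Function.Injective t → ∀ z : Fin 3 → Fin 3 → ℤ,
        (∀ j c, 1 ≤ z j c ∧ z j c ≤ Z) → ∀ δ : ℤ, (q : ℤ) ∣ δ - det3 (fun j => base (t j) + z j) →
          (q : ℤ) ≤ 4 * (P : ℤ) * |δ| := by
  have hP0 : 1 ≤ P := by omega
  have hUW : P ^ (16 * E + 49) = U * W := by rw [hW, hU]; ring
  rw [hUW] at hq1 hq2
  have hU0 : 0 < U := by rw [hU]; positivity
  have hW0 : 0 < W := by rw [hW]; positivity
  have hZ0 : 0 < Z := by rw [hZ]; positivity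
  have hu2U : u2 ≤ 2 * U := by
    rw [hu2]
    apply Nat.div_le_of_le_mul
    calc q ≤ 2 * (U * W) := hq2
      _ = _ := by ring
  have hqW : q = u2 * W + q % W := by
    rw [mul_comm, hu2]; exact (Nat.div_add_mod q W).symm
  have hρ : q % W < W := Nat.mod_lt _ hW0
  let F : Fin k → Fin s → Fin 3 → ℤ := fun i t c => ((f i t c).val : ℤ)
  have hF : ∀ i t c, 0 ≤ F i t c ∧ F i t c ≤ l := fun i t c =>
    ⟨Int.natCast_nonneg _, by
      have := ZMod.val_lt (f i t c)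
      simp only [F]
      omega⟩
  let e : Fin 3 → Fin k → ℕ := ![fun i => i, fun i => k * i, fun i => E - (k + 1) * i]
  have heE : ∀ c i, e c i ≤ E := by
    refine forall3 (fun i => ?_) (fun i => ?_) (fun i => ?_)
    · have := i.2
      change (i : ℕ) ≤ E
      rw [hE]
      nlinarith only [this]
    · have := i.2
      change k * (i : ℕ) ≤ E
      rw [hE]
      nlinarith only [this]
    · change E - (k + 1) * (i : ℕ) ≤ E
      omega
  let d : Fin s → Fin 3 → ℤ := fun t c => ∑ i, F i t c * (P : ℤ) ^ e c i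
  have hP0' : (1 : ℤ) ≤ P := by exact_mod_cast hP0
  have hd : ∀ t c, 0 ≤ d t c ∧ d t c ≤ (P : ℤ) ^ (E + 1) := by
    intro t c
    refine ⟨Finset.sum_nonneg fun i _ => mul_nonneg (hF i t c).1 (by positivity), ?_⟩
    have h1 : ∀ i ∈ (Finset.univ : Finset (Fin k)), F i t c * (P : ℤ) ^ e c i
        ≤ l * (P : ℤ) ^ E := fun i _ =>
      mul_le_mul (hF i t c).2 (pow_le_pow_right₀ hP0' (heE c i)) (by positivity) (by positivity)
    refine (Finset.sum_le_card_nsmul _ _ _ h1).trans ?_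
    have h2 : (k : ℤ) * l ≤ P := by exact_mod_cast hP4
    simp only [Finset.card_univ, Fintype.card_fin, nsmul_eq_mul]
    calc (k : ℤ) * (l * (P : ℤ) ^ E) = (k * l) * (P : ℤ) ^ E := by ring
      _ ≤ P * (P : ℤ) ^ E := mul_le_mul_of_nonneg_right h2 (by positivity)
      _ = _ := by ring
  let u : Fin 3 → ℤ := ![U, U, u2]
  have hu : ∀ c, 0 ≤ u c ∧ u c ≤ 2 * U := by
    refine forall3 ?_ ?_ ?_ <;> simp only [u, Matrix.cons_val_zero, Matrix.cons_val_one,
      Matrix.cons_val] <;> omega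
  have hZU : Z * P ^ (E + 3) = U := by rw [hZ, hU]; ring
  have hZU' : Z ≤ U := by
    rw [← hZU]
    exact Nat.le_mul_of_pos_right _ (by positivity)
  have hU3 : 3 ≤ U := by
    have : P ^ 1 ≤ U := hU ▸ Nat.pow_le_pow_right hP0 (by omega)
    rw [pow_one] at this
    omega
  have hPE : 1 ≤ P ^ (E + 1) := Nat.one_le_pow _ _ hP0
  have hUPE : U ≤ U * P ^ (E + 1) := Nat.le_mul_of_pos_right _ hPE
  refine ⟨fun t c => u c * d t c, hZ0, ?_, ?_, ?_, ?_⟩
  · have : U ≤ U * W := Nat.le_mul_of_pos_right _ hW0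
    omega
  · have h1 : P ^ 2 * (P * (U * W)) = Z ^ 4 := by rw [hW, hU, hZ]; ring
    rw [← h1]
    exact Nat.mul_le_mul hP3 (hq2.trans (Nat.mul_le_mul_right _ (by omega)))
  · intro t z hz1 hz2
    have h1 := hd t 0
    have h2 : u 0 = U := rfl
    simp only [h2]
    have h3 : (U : ℤ) * d t 0 ≤ U * (P : ℤ) ^ (E + 1) :=
      mul_le_mul_of_nonneg_left h1.2 (by positivity)
    have h4 : U * P ^ (E + 1) + Z < q := by
      have h5 : U * P ^ (E + 1) + Z ≤ 2 * (U * P ^ (E + 1)) := by omega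
      have h6 : 2 * (U * P ^ (E + 1)) ≤ U * W := by
        rw [hW]
        have : 2 ≤ U ^ 2 := by nlinarith only [hU3]
        calc 2 * (U * P ^ (E + 1)) ≤ U ^ 2 * (U * P ^ (E + 1)) := Nat.mul_le_mul_right _ this
          _ = _ := by ring
      omega
    have h4' : (U : ℤ) * (P : ℤ) ^ (E + 1) + Z < q := by exact_mod_cast h4
    have h7 : 0 ≤ (U : ℤ) * d t 0 := mul_nonneg (by positivity) h1.1
    constructor <;> linarith
  · intro t ht z hz δ hδ
    let a : Fin k × Fin k × Fin k → ℤ := fun i =>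
      det3 (fun j => ![F i.1 (t j) 0, F i.2.1 (t j) 1, F i.2.2 (t j) 2])
    let ee : Fin k × Fin k × Fin k → ℕ := fun i => e 0 i.1 + e 1 i.2.1 + e 2 i.2.2
    have hexp : det3 (fun j => d (t j)) = ∑ i, a i * (P : ℤ) ^ ee i := by
      have := det3_expand (fun i j c => F i (t j) c * (P : ℤ) ^ e c i)
      refine this.trans (Finset.sum_congr rfl fun i _ => ?_)
      simp only [a, ee, det3, dot, cr0, cr1, cr2, Matrix.cons_val_zero, Matrix.cons_val_one,
        Matrix.cons_val]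
      ring
    have ha : ∀ i, |a i| ≤ 6 * (l : ℤ) ^ 3 := by
      intro i
      apply abs_det3_le
      intro j
      refine forall3 ?_ ?_ ?_ <;> simp only [Matrix.cons_val_zero, Matrix.cons_val_one,
        Matrix.cons_val] <;> rw [abs_of_nonneg (hF _ _ _).1] <;> exact (hF _ _ _).2
    have hB : ∑ i, |a i| ≤ 6 * ((k : ℤ) * l) ^ 3 := by
      refine (Finset.sum_le_card_nsmul _ _ _ fun i _ => ha i).trans (le_of_eq ?_)
      simp only [Finset.card_univ, Fintype.card_prod, Fintype.card_fin, nsmul_eq_mul]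
      push_cast
      ring
    have hB4 : 4 * (6 * ((k : ℤ) * l) ^ 3) ≤ P := by
      have : ((24 * (k * l) ^ 3 : ℕ) : ℤ) ≤ P := by exact_mod_cast hP1
      push_cast at this
      linarith
    obtain ⟨H, L, hsplit, hH, hL⟩ := digits Finset.univ a ee P E hP0' (fun i => by
      have h0 := heE 0 i.1
      have h1 := heE 1 i.2.1
      have h2 := heE 2 i.2.2
      simp only [ee]
      omega) _ hB
    set γ := ∑ i, if ee i = E then a i else 0 with hγ
    have hγ1 : γ = ∑ i : Fin k, a (i, i, i) := by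
      have hcond : ∀ i : Fin k × Fin k × Fin k, ee i = E ↔ i.2.1 = i.1 ∧ i.2.2 = i.1 := by
        rintro ⟨i0, i1, i2⟩
        change (i0 : ℕ) + k * i1 + (E - (k + 1) * i2) = E ↔ i1 = i0 ∧ i2 = i0
        have h0 := i0.2
        have h2 := i2.2
        have h3 : (k + 1) * (i2 : ℕ) ≤ E := hE ▸ Nat.mul_le_mul_left _ h2.le
        constructor
        · intro h
          have h4 : (i0 : ℕ) + k * i1 = i2 + k * i2 := by
            have : (k + 1) * (i2 : ℕ) = i2 + k * i2 := by ring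
            omega
          have h5 : (i0 : ℕ) = i2 := by
            have := congrArg (· % k) h4
            simpa [Nat.mod_eq_of_lt h0, Nat.mod_eq_of_lt h2] using this
          have h6 : k * (i1 : ℕ) = k * i2 := by omega
          have h7 := Nat.eq_of_mul_eq_mul_left hk h6
          exact ⟨Fin.ext (by omega), Fin.ext h5.symm⟩
        · rintro ⟨rfl, rfl⟩
          have : (k + 1) * (i2 : ℕ) = i2 + k * i2 := by ring
          omega
      simp only [hγ, hcond, Fintype.sum_prod_type, ite_and, Finset.sum_ite_eq', Finset.mem_univ,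
        if_true]
      refine Finset.sum_congr rfl fun i _ => ?_
      rw [Finset.sum_eq_single i]
      · simp
      · intro b _ hb
        simp [hb]
      · simp
    have hγ0 : γ ≠ 0 := by
      intro h
      apply hf t ht
      have h1 : ((γ : ℤ) : ZMod l) = 0 := by rw [h]; simp
      rw [hγ1] at h1
      rw [← h1]
      simp [a, F, det3, dot]
    have hγB : |γ| ≤ 6 * ((k : ℤ) * l) ^ 3 := by
      refine (Finset.abs_sum_le_sum_abs _ _).trans (le_trans (Finset.sum_le_sum fun i _ => ?_) hB)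
      split_ifs
      · exact le_rfl
      · simp
    generalize 6 * ((k : ℤ) * l) ^ 3 = B0 at *
    have hγ1' : 1 ≤ |γ| := Int.one_le_abs hγ0
    have hPE0 : (0 : ℤ) < (P : ℤ) ^ E := by positivity
    have hL4 : 4 * |L| ≤ (P : ℤ) ^ E := by
      have h1 : (P : ℤ) * (4 * |L|) ≤ P * (P : ℤ) ^ E := by
        have := mul_le_mul_of_nonneg_right hB4 hPE0.le
        linarith
      exact le_of_mul_le_mul_left h1 (by linarith)
    have habs : |γ * (P : ℤ) ^ E| = |γ| * (P : ℤ) ^ E := by rw [abs_mul, abs_of_pos hPE0]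
    have hpert := abs_det3_pert (fun j c => u c * d (t j) c) z (2 * U * (P : ℤ) ^ (E + 1)) Z (by
      intro j c
      rw [abs_of_nonneg (mul_nonneg (hu c).1 (hd _ c).1)]
      exact mul_le_mul (hu c).2 (hd _ c).2 (hd _ c).1 (by positivity)) (by
      intro j c
      have := hz j c
      rw [abs_of_nonneg (by linarith)]
      exact this.2) (by
      have : Z ≤ 2 * U * P ^ (E + 1) := by rw [mul_assoc]; omega
      exact_mod_cast this)
    have hscale : det3 (fun j c => u c * d (t j) c) = (U : ℤ) ^ 2 * u2 * det3 (fun j => d (t j)) := by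
      simp only [u, det3, dot, cr0, cr1, cr2, Matrix.cons_val_zero, Matrix.cons_val_one,
        Matrix.cons_val]
      ring
    apply far_of q ((U : ℤ) ^ 2 * u2) (γ * (P : ℤ) ^ E + L)
      (det3 (fun j => (fun c => u c * d (t j) c) + z j) - det3 (fun j c => u c * d (t j) c))
      ((q % W : ℕ) : ℤ) H (det3 fun j => d (t j)) δ P ((P : ℤ) ^ E) hP0' (by positivity)
    · have : (q : ℤ) = ((u2 * W + q % W : ℕ) : ℤ) := by rw [← hqW]
      rw [this, hW]
      push_cast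
      ring
    · positivity
    · have : 3 * (q % W) ≤ q := by
        have := Nat.mul_le_mul hU3 hρ.le
        omega
      exact_mod_cast this
    · have h1 : |γ * (P : ℤ) ^ E| ≤ |γ * (P : ℤ) ^ E + L| + |L| := by
        have := abs_sub (γ * (P : ℤ) ^ E + L) L
        rwa [add_sub_cancel_right] at this
      have h2 := mul_le_mul_of_nonneg_right hγ1' hPE0.le
      linarith
    · have h1 := abs_add_le (γ * (P : ℤ) ^ E) L
      have h2 : 4 * |γ| * (P : ℤ) ^ E ≤ P * (P : ℤ) ^ E :=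
        mul_le_mul_of_nonneg_right (by linarith) hPE0.le
      have h3 := mul_le_mul_of_nonneg_right hP0' hPE0.le
      linarith
    · rw [hexp, hsplit]
      ring
    · have h1 : |H| ≤ (P : ℤ) ^ (3 * E + 1) := by
        have hB0 : B0 ≤ P := by linarith [abs_nonneg γ]
        calc |H| ≤ B0 * (P : ℤ) ^ (3 * E) := hH
          _ ≤ P * (P : ℤ) ^ (3 * E) := mul_le_mul_of_nonneg_right hB0 (by positivity)
          _ = _ := by ring
      have h2 : |H| * ((q % W : ℕ) : ℤ) ≤ (P : ℤ) ^ (3 * E + 1) * W :=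
        mul_le_mul h1 (by exact_mod_cast hρ.le) (by positivity) (by positivity)
      have h3 : 8 * P * (P ^ (3 * E + 1) * W) ≤ U * W := by
        have h4 : 8 * P * P ^ (3 * E + 1) ≤ U := by
          calc 8 * P * P ^ (3 * E + 1) ≤ P * P * P ^ (3 * E + 1) := by gcongr; omega
            _ = P ^ (3 * E + 3) := by ring
            _ ≤ U := hU ▸ Nat.pow_le_pow_right hP0 (by omega)
        calc _ = 8 * P * P ^ (3 * E + 1) * W := by ring
          _ ≤ _ := Nat.mul_le_mul_right _ h4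
      have h5 : 8 * P * (42 * (Z * (2 * U * P ^ (E + 1)) * (2 * U * P ^ (E + 1)))) ≤ U * W := by
        calc _ = 1344 * (Z * P ^ (E + 2) * W) := by rw [hW]; ring
          _ ≤ P * (Z * P ^ (E + 2) * W) := Nat.mul_le_mul_right _ hP2
          _ = Z * P ^ (E + 3) * W := by ring
          _ = _ := by rw [hZU]
      have h3' : 8 * (P : ℤ) * ((P : ℤ) ^ (3 * E + 1) * W) ≤ U * W := by exact_mod_cast h3
      have h5' : 8 * (P : ℤ) * (42 * (Z * (2 * U * (P : ℤ) ^ (E + 1)) *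
          (2 * U * (P : ℤ) ^ (E + 1)))) ≤ U * W := by exact_mod_cast h5
      have h6 : (U : ℤ) * W ≤ q := by exact_mod_cast hq1.le
      have h7 := mul_le_mul_of_nonneg_left h2 (show (0 : ℤ) ≤ 8 * P by positivity)
      have h8 := mul_le_mul_of_nonneg_left hpert (show (0 : ℤ) ≤ 8 * P by positivity)
      linarith
    · rw [← hscale, add_sub_cancel]
      exact hδ

theorem residues : ∃ A l0 : ℕ, 0 < A ∧ ∀ (l : ℕ) [Fact l.Prime], l0 ≤ l → ∀ q : ℕ, l ^ A < q →
    q ≤ 2 * l ^ A → ∃ (Z : ℕ) (base : Fin (l ^ 7) → Fin 3 → ℤ), 0 < Z ∧ Z ≤ q ∧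
      l ^ 7 * q ≤ Z ^ 4 ∧ (∀ t (z : ℤ), 1 ≤ z → z ≤ Z → 0 < base t 0 + z ∧ base t 0 + z < q) ∧
      ∀ t : Fin 3 → Fin (l ^ 7), Function.Injective t → ∀ z : Fin 3 → Fin 3 → ℤ,
        (∀ j c, 1 ≤ z j c ∧ z j c ≤ Z) → ∀ δ : ℤ, (q : ℤ) ∣ δ - det3 (fun j => base (t j) + z j) →
          (q : ℤ) ≤ 4 * ((l ^ 4 : ℕ) : ℤ) * |δ| := by
  obtain ⟨k, hk, hten⟩ := tensor
  refine ⟨4 * (16 * ((k + 1) * k) + 49), 24 * k ^ 3 + 7, by omega, fun l _ hl q hq1 hq2 => ?_⟩
  have hk3 : 1 ≤ k ^ 3 := Nat.one_le_pow _ _ hk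
  obtain ⟨f, hf⟩ := hten l (by omega)
  rw [pow_mul] at hq1 hq2
  have hP1 : 24 * (k * l) ^ 3 ≤ l ^ 4 := by
    calc 24 * (k * l) ^ 3 = 24 * k ^ 3 * l ^ 3 := by ring
      _ ≤ l * l ^ 3 := Nat.mul_le_mul_right _ (by omega)
      _ = _ := by ring
  have hP2 : 1344 ≤ l ^ 4 := le_trans (by norm_num) (Nat.pow_le_pow_left (show 7 ≤ l by omega) 4)
  have hP3 : l ^ 7 ≤ (l ^ 4) ^ 2 := by
    rw [← pow_mul]
    exact Nat.pow_le_pow_right (by omega) (by norm_num)
  have hP4 : k * l ≤ l ^ 4 := by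
    have h1 : k * l ≤ (k * l) ^ 3 := Nat.le_self_pow (by norm_num) _
    omega
  exact ⟨_, residues_core k l (l ^ 7) (l ^ 4) _ _ _ _ q _ hk f hf hP1 hP2 hP3 hP4 rfl rfl rfl rfl rfl
    hq1 hq2⟩

end Vale.Agent.P036
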