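import Vale.Agent.P036.Model
import Vale.Agent.P036.Res

namespace Vale.Agent.P036

open Finset

lemma det3_res (q : ℕ) {s Z : ℕ} (base : Fin s → Fin 3 → ℤ)
    (θ : Fin 3 → Fin s × (Fin 3 → Fin Z)) :
    det3 (fun j => res q base (θ j)) = ((det3 (fun j => base (θ j).1 +
      fun c => ((((θ j).2 c : ℕ) : ℤ) + 1)) : ℤ) : ZMod q) := by
  simp only [det3, dot, cr0, cr1, cr2, res, Pi.add_apply]
  push_cast
  ring

theorem vectors : ∃ a l0 : ℕ, 0 < a ∧ ∀ l : ℕ, l.Prime → l0 ≤ l → ∀ n : ℕ, n ≤ l ^ a →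
    ∃ (M : ℕ) (v : Fin n → Fin 3 → ℤ), 0 < M ∧
      (∀ i, (M : ℤ) ≤ v i 0 ∧ v i 0 ≤ 2 * (M : ℤ) ∧ 0 ≤ v i 1 ∧ v i 1 ≤ M ∧ 0 ≤ v i 2 ∧ v i 2 ≤ M) ∧
      ∀ e : Fin 3 → Fin n, Function.Injective e →
        (l : ℤ) * (M : ℤ) ^ 3 ≤ 16384 * (l : ℤ) ^ (2 * a) * |det3 fun j => v (e j)| := by
  obtain ⟨A, l0, hA, hres⟩ := residues
  refine ⟨10 * A + 19, max l0 (2751882854400 * (14 * A + 37)), by omega,
    fun l hl hl0 n hn => ?_⟩
  obtain ⟨hl0, hlC⟩ := max_le_iff.1 hl0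
  haveI := Fact.mk hl
  have hl2 := hl.two_le
  have hlp : 0 < l := hl.pos
  obtain ⟨q, hq, hq1, hq2⟩ := Nat.exists_prime_lt_and_le_two_mul (l ^ A) (by positivity)
  obtain ⟨p, hp, hp1, hp2⟩ := Nat.exists_prime_lt_and_le_two_mul (2 * l ^ A) (by positivity)
  obtain ⟨r, hr, hr1, hr2⟩ := Nat.exists_prime_lt_and_le_two_mul (l ^ (5 * A + 11))
    (by positivity)
  haveI := Fact.mk hq
  haveI := Fact.mk hp
  haveI := Fact.mk hr
  obtain ⟨Z, base, hZ0, hZ, hs, hb0, hfar⟩ := hres l hl0 q hq1 hq2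
  have hMu : q * p * r ≤ 16 * l ^ (7 * A + 11) := by
    calc q * p * r ≤ (2 * l ^ A) * (2 * (2 * l ^ A)) * (2 * l ^ (5 * A + 11)) := by gcongr
      _ = _ := by ring
  have hMl : 2 * l ^ (7 * A + 11) ≤ q * p * r := by
    calc 2 * l ^ (7 * A + 11) = l ^ A * (2 * l ^ A) * l ^ (5 * A + 11) := by ring
      _ ≤ _ := by gcongr
  have h4 : 1 ≤ l ^ 4 := Nat.one_le_pow _ _ hlp
  obtain ⟨v, hv, hdet⟩ := model q p r (l ^ 7) Z (4 * l ^ 4) (15 + l * (7 * A + 11) * 2) n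
    (by omega) (by
      have h1 : 2 ^ 2 ≤ l ^ (4 * A + 11) :=
        (Nat.pow_le_pow_left hl2 2).trans (Nat.pow_le_pow_right hlp (by omega))
      have h2 : 2 ^ 2 * l ^ A ≤ l ^ (4 * A + 11) * l ^ A := Nat.mul_le_mul_right _ h1
      have h3 : l ^ (4 * A + 11) * l ^ A = l ^ (5 * A + 11) := by ring
      omega) (by omega) (by positivity) hZ0 (by
      have h1 : l ^ (7 * A + 11) ≤ 2 ^ (l * (7 * A + 11)) := by
        rw [pow_mul]
        exact Nat.pow_le_pow_left (Nat.lt_two_pow_self).le _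
      have h2 : q * p * r ≤ 16 * 2 ^ (l * (7 * A + 11)) := hMu.trans (Nat.mul_le_mul_left _ h1)
      have h3 : 0 < (2 ^ (l * (7 * A + 11))) ^ 2 := by positivity
      calc 18 * (2 * (q * p * r)) ^ 2 ≤ 18 * (2 * (16 * 2 ^ (l * (7 * A + 11)))) ^ 2 := by gcongr
        _ = 18432 * (2 ^ (l * (7 * A + 11))) ^ 2 := by ring
        _ < 32768 * (2 ^ (l * (7 * A + 11))) ^ 2 := by omega
        _ = _ := by rw [pow_add, pow_mul 2 _ 2]; norm_num) base hZ hs (by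
      intro θ h
      have h1 := (θ.2 0).2
      have h2 := hb0 θ.1 (((θ.2 0 : ℕ) : ℤ) + 1) (by omega) (by omega)
      simp only [res] at h
      rw [ZMod.intCast_zmod_eq_zero_iff_dvd] at h
      have h3 := Int.le_of_dvd h2.1 h
      omega) (by
      intro θ hθ d hd
      rw [det3_res, ZMod.intCast_eq_intCast_iff_dvd_sub, dvd_sub_comm] at hd
      have := hfar (fun j => (θ j).1) hθ (fun j c => (((θ j).2 c : ℕ) : ℤ) + 1) (by
        intro j c
        have := ((θ j).2 c).2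
        omega) d hd
      push_cast at this ⊢
      exact this) (by
      have h1 : 2 ^ 3 ≤ l ^ 3 := Nat.pow_le_pow_left hl2 3
      calc 8 * n ≤ l ^ 3 * l ^ (10 * A + 19) := Nat.mul_le_mul h1 hn
        _ = (l ^ (5 * A + 11)) ^ 2 := by ring
        _ ≤ r ^ 2 := Nat.pow_le_pow_left hr1.le 2) (by
      have h1 : 15 + l * (7 * A + 11) * 2 ≤ (14 * A + 37) * l := by nlinarith only [hlp]
      have h2 : 2751882854400 * (14 * A + 37) ≤ l := hlC
      calc 2751882854400 * (15 + l * (7 * A + 11) * 2) * n ^ 2 * q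
          ≤ 2751882854400 * ((14 * A + 37) * l) * (l ^ (10 * A + 19)) ^ 2 * (2 * l ^ A) := by
            gcongr
        _ = (2751882854400 * (14 * A + 37)) * (2 * l ^ (21 * A + 39)) := by ring
        _ ≤ l * (8 * l ^ (21 * A + 39)) := Nat.mul_le_mul h2 (by omega)
        _ = l ^ 7 * (2 * l ^ (7 * A + 11)) ^ 3 := by ring
        _ ≤ _ := by gcongr)
  refine ⟨q * p * r, v, Nat.mul_pos (Nat.mul_pos hq.pos hp.pos) hr.pos, hv, fun e he => ?_⟩
  have h1 := hdet e he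
  generalize |det3 fun j => v (e j)| = D at *
  generalize q * p * r = M at *
  have h2 : (l : ℤ) ^ A ≤ 4 * (l : ℤ) ^ 4 * D := by
    have : (l : ℤ) ^ A ≤ q := by exact_mod_cast hq1.le
    push_cast at h1
    linarith
  have h3 : (M : ℤ) ≤ 16 * (l : ℤ) ^ (7 * A + 11) := by exact_mod_cast hMu
  have hl' : (0 : ℤ) < l := by exact_mod_cast hlp
  calc (l : ℤ) * (M : ℤ) ^ 3 ≤ l * (16 * (l : ℤ) ^ (7 * A + 11)) ^ 3 := by gcongr
    _ = 4096 * (l : ℤ) ^ (20 * A + 34) * (l : ℤ) ^ A := by ring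
    _ ≤ 4096 * (l : ℤ) ^ (20 * A + 34) * (4 * (l : ℤ) ^ 4 * D) :=
        mul_le_mul_of_nonneg_left h2 (by positivity)
    _ = _ := by ring

theorem points : ∃ (η c : ℝ) (n0 : ℕ), 0 < η ∧ 0 < c ∧ ∀ n : ℕ, n0 ≤ n →
    ∃ x : Fin n → ℝ × ℝ,
      (∀ i, (0 ≤ (x i).1 ∧ (x i).1 ≤ 1) ∧ (0 ≤ (x i).2 ∧ (x i).2 ≤ 1)) ∧
      ∀ i j k, i ≠ j → i ≠ k → j ≠ k → c * (n : ℝ) ^ (-2 + η) ≤
        |((x j).1 - (x i).1) * ((x k).2 - (x i).2) - ((x j).2 - (x i).2) * ((x k).1 - (x i).1)|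
          / 2 := by
  obtain ⟨a, l0, ha, hvec⟩ := vectors
  have ha' : (0 : ℝ) < a := by exact_mod_cast ha
  refine ⟨1 / a, 1 / (262144 * ((4 : ℝ) ^ a) ^ 2), (l0 + 2) ^ a + 1, by positivity, by positivity,
    fun n hn => ?_⟩
  have hex : ∃ m : ℕ, n ≤ m ^ a := ⟨n, Nat.le_self_pow ha.ne' n⟩
  have hm1 := Nat.find_spec hex
  have hm2 : l0 + 2 < Nat.find hex := by
    rw [Nat.lt_find_iff]
    intro m hm h
    have := Nat.pow_le_pow_left hm a
    omega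
  have hm3 := Nat.find_min hex (show Nat.find hex - 1 < Nat.find hex by omega)
  generalize Nat.find hex = m at *
  obtain ⟨l, hl, hl1, hl2⟩ := Nat.exists_prime_lt_and_le_two_mul m (by omega)
  have hnl : n ≤ l ^ a := hm1.trans (Nat.pow_le_pow_left hl1.le a)
  have hln : l ^ a ≤ 4 ^ a * n := by
    calc l ^ a ≤ (4 * (m - 1)) ^ a := Nat.pow_le_pow_left (by omega) a
      _ = 4 ^ a * (m - 1) ^ a := mul_pow _ _ _
      _ ≤ _ := Nat.mul_le_mul_left _ (by omega)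
  obtain ⟨M, v, hM, hv, hdet⟩ := hvec l hl (by omega) n hnl
  have hM' : (0 : ℝ) < M := by exact_mod_cast hM
  have hv' : ∀ i, (M : ℝ) ≤ v i 0 ∧ (v i 0 : ℝ) ≤ 2 * (M : ℝ) ∧ (0 : ℝ) ≤ v i 1 ∧
      (v i 1 : ℝ) ≤ M ∧ (0 : ℝ) ≤ v i 2 ∧ (v i 2 : ℝ) ≤ M := by
    intro i
    exact_mod_cast hv i
  have hpos : ∀ i, (0 : ℝ) < v i 0 := fun i => hM'.trans_le (hv' i).1
  refine ⟨fun i => ((v i 1 : ℝ) / v i 0, (v i 2 : ℝ) / v i 0), fun i => ?_,
    fun i j k hij hik hjk => ?_⟩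
  · obtain ⟨h1, -, h3, h4, h5, h6⟩ := hv' i
    have h0 := hpos i
    refine ⟨⟨by positivity, ?_⟩, by positivity, ?_⟩
    · exact (div_le_one h0).2 (h4.trans h1)
    · exact (div_le_one h0).2 (h6.trans h1)
  · have he : Function.Injective ![i, j, k] := by
      refine forall3 (forall3 ?_ ?_ ?_) (forall3 ?_ ?_ ?_) (forall3 ?_ ?_ ?_) <;> intro h <;>
      first
        | rfl
        | exact absurd h hij
        | exact absurd h hik
        | exact absurd h hjk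
        | exact absurd h.symm hij
        | exact absurd h.symm hik
        | exact absurd h.symm hjk
    have h1 := hdet _ he
    have hi := hpos i
    have hj := hpos j
    have hk := hpos k
    have h2 : ((v j 1 : ℝ) / v j 0 - (v i 1 : ℝ) / v i 0) * ((v k 2 : ℝ) / v k 0 - (v i 2 : ℝ) / v i 0)
        - ((v j 2 : ℝ) / v j 0 - (v i 2 : ℝ) / v i 0) * ((v k 1 : ℝ) / v k 0 - (v i 1 : ℝ) / v i 0)
        = ((det3 fun t => v (![i, j, k] t) : ℤ) : ℝ) / (v i 0 * v j 0 * v k 0) := by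
      simp only [det3, dot, cr0, cr1, cr2, Matrix.cons_val_zero, Matrix.cons_val_one,
        Matrix.cons_val]
      push_cast
      field_simp
      ring
    dsimp only
    rw [h2, abs_div, abs_of_pos (by positivity : (0 : ℝ) < v i 0 * v j 0 * v k 0), ← Int.cast_abs]
    generalize |det3 fun t => v (![i, j, k] t)| = D at *
    have h3 : (l : ℝ) * (M : ℝ) ^ 3 ≤ 16384 * (l : ℝ) ^ (2 * a) * D := by exact_mod_cast h1
    have hl' : (0 : ℝ) < l := by exact_mod_cast hl.pos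
    have hn0 : (0 : ℝ) < n := by exact_mod_cast (show 0 < n by omega)
    have h4 : (v i 0 : ℝ) * v j 0 * v k 0 ≤ (2 * M) * (2 * M) * (2 * M) := by
      have := (hv' i).2.1
      have := (hv' j).2.1
      have := (hv' k).2.1
      gcongr
    have h5 : (n : ℝ) ^ (1 / (a : ℝ)) ≤ l := by
      rw [one_div, Real.rpow_inv_le_iff_of_pos hn0.le hl'.le ha', Real.rpow_natCast]
      exact_mod_cast hnl
    have h6 : (l : ℝ) ^ (2 * a) ≤ ((4 : ℝ) ^ a * n) ^ 2 := by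
      rw [mul_comm 2 a, pow_mul]
      exact pow_le_pow_left₀ (by positivity) (by exact_mod_cast hln) 2
    have hD : (0 : ℝ) ≤ D := by
      have : (0 : ℝ) < 16384 * (l : ℝ) ^ (2 * a) * D := lt_of_lt_of_le (by positivity) h3
      exact ((mul_pos_iff_of_pos_left (by positivity)).1 this).le
    have h7 : (l : ℝ) * (M : ℝ) ^ 3 ≤ 16384 * ((4 : ℝ) ^ a * n) ^ 2 * D := by
      refine h3.trans ?_
      gcongr
    rw [Real.rpow_add hn0, Real.rpow_neg hn0.le, Real.rpow_two]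
    calc 1 / (262144 * ((4 : ℝ) ^ a) ^ 2) * (((n : ℝ) ^ 2)⁻¹ * (n : ℝ) ^ (1 / (a : ℝ)))
        ≤ 1 / (262144 * ((4 : ℝ) ^ a) ^ 2) * (((n : ℝ) ^ 2)⁻¹ * l) := by gcongr
      _ = (l * (M : ℝ) ^ 3) / (262144 * ((4 : ℝ) ^ a * n) ^ 2 * (M : ℝ) ^ 3) := by field_simp
      _ ≤ (16384 * ((4 : ℝ) ^ a * n) ^ 2 * D) / (262144 * ((4 : ℝ) ^ a * n) ^ 2 * (M : ℝ) ^ 3) := by
          gcongr
      _ = D / ((2 * M) * (2 * M) * (2 * M)) / 2 := by field_simp; ring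
      _ ≤ _ := by gcongr

end Vale.Agent.P036
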