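import Vale.Agent.P036.Weight
import Vale.Agent.P036.Delete

namespace Vale.Agent.P036

open Finset

lemma exists_crt (q p r : ℕ) [NeZero q] [NeZero p] [NeZero r] (h1 : Nat.Coprime q p)
    (h2 : Nat.Coprime q r) (h3 : Nat.Coprime p r) (a : ZMod q) (b : ZMod p) (c : ZMod r) :
    ∃ x : ℤ, 0 ≤ x ∧ x < ((q * p * r : ℕ) : ℤ) ∧ (x : ZMod q) = a ∧ (x : ZMod p) = b ∧
      (x : ZMod r) = c := by
  obtain ⟨x1, e1, e2⟩ := Nat.chineseRemainder h1 a.val b.val
  obtain ⟨x2, e3, e4⟩ := Nat.chineseRemainder (Nat.Coprime.mul_left h2 h3) x1 c.val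
  have hM : 0 < q * p * r :=
    Nat.mul_pos (Nat.mul_pos (NeZero.pos q) (NeZero.pos p)) (NeZero.pos r)
  have e5 : x2 % (q * p * r) ≡ x2 [MOD q * p * r] := Nat.mod_modEq _ _
  refine ⟨((x2 % (q * p * r) : ℕ) : ℤ), Int.natCast_nonneg _, by exact_mod_cast Nat.mod_lt _ hM,
    ?_, ?_, ?_⟩
  · rw [Int.cast_natCast, ← ZMod.natCast_zmod_val a, ZMod.natCast_eq_natCast_iff]
    exact ((e5.of_mul_right r).trans e3).of_mul_right p |>.trans e1
  · rw [Int.cast_natCast, ← ZMod.natCast_zmod_val b, ZMod.natCast_eq_natCast_iff]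
    exact ((e5.of_mul_right r).trans e3).of_mul_left q |>.trans e2
  · rw [Int.cast_natCast, ← ZMod.natCast_zmod_val c, ZMod.natCast_eq_natCast_iff]
    exact (e5.of_mul_left _).trans e4

/-- Residue vector of a template. -/
def res (q : ℕ) {s Z : ℕ} (base : Fin s → Fin 3 → ℤ) (θ : Fin s × (Fin 3 → Fin Z)) :
    Fin 3 → ZMod q := fun c => ((base θ.1 c + (((θ.2 c : ℕ) : ℤ) + 1) : ℤ) : ZMod q)

lemma card_coinc (s Z : ℕ) : (Finset.univ.filter fun θ : Fin 3 → Fin s × (Fin 3 → Fin Z) =>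
    ¬ Function.Injective fun j => (θ j).1).card ≤ 3 * (s ^ 2 * Z ^ 9) := by
  have hc : (Finset.univ : Finset ((Fin s × Fin s) × (Fin 3 → Fin 3 → Fin Z))).card
      = s ^ 2 * Z ^ 9 := by
    simp only [Finset.card_univ, Fintype.card_prod, Fintype.card_pi, Fintype.card_fin,
      Finset.prod_const]
    ring
  have key : ∀ i j l : Fin 3, (∀ m, m = i ∨ m = j ∨ m = l) →
      (Finset.univ.filter fun θ : Fin 3 → Fin s × (Fin 3 → Fin Z) =>
        (θ i).1 = (θ j).1).card ≤ s ^ 2 * Z ^ 9 := by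
    intro i j l h
    rw [← hc]
    apply Finset.card_le_card_of_injOn (fun θ => (((θ i).1, (θ l).1), fun m => (θ m).2)) (by simp)
    intro θ hθ θ' hθ' e
    replace hθ := (Finset.mem_filter.1 (Finset.mem_coe.1 hθ)).2
    replace hθ' := (Finset.mem_filter.1 (Finset.mem_coe.1 hθ')).2
    simp only [Prod.mk.injEq] at e
    funext m
    refine Prod.ext ?_ (congrFun e.2 m)
    rcases h m with rfl | rfl | rfl
    · exact e.1.1
    · rw [← hθ, ← hθ']
      exact e.1.1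
    · exact e.1.2
  have k1 := key 0 1 2 (by decide)
  have k2 := key 0 2 1 (by decide)
  have k3 := key 1 2 0 (by decide)
  refine le_trans (Finset.card_le_card (t :=
    (Finset.univ.filter fun θ : Fin 3 → Fin s × (Fin 3 → Fin Z) => (θ 0).1 = (θ 1).1) ∪
    ((Finset.univ.filter fun θ : Fin 3 → Fin s × (Fin 3 → Fin Z) => (θ 0).1 = (θ 2).1) ∪
    (Finset.univ.filter fun θ : Fin 3 → Fin s × (Fin 3 → Fin Z) => (θ 1).1 = (θ 2).1))) ?_) ?_
  · intro θ hθ
    simp only [Finset.mem_filter, Finset.mem_univ, true_and, Finset.mem_union] at hθ ⊢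
    by_contra hn
    push Not at hn
    apply hθ
    obtain ⟨h1, h2, h3⟩ := hn
    refine forall3 (forall3 ?_ ?_ ?_) (forall3 ?_ ?_ ?_) (forall3 ?_ ?_ ?_) <;> intro h <;>
    first
      | rfl
      | exact absurd h h1
      | exact absurd h h2
      | exact absurd h h3
      | exact absurd h.symm h1
      | exact absurd h.symm h2
      | exact absurd h.symm h3
  · refine (Finset.card_union_le _ _).trans ?_
    refine (Nat.add_le_add_left (Finset.card_union_le _ _) _).trans ?_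
    omega

open Classical in
lemma card_rk1 (q s Z : ℕ) [Fact q.Prime] (base : Fin s → Fin 3 → ℤ) (hZ : Z ≤ q)
    (h0 : ∀ θ : Fin s × (Fin 3 → Fin Z), res q base θ 0 ≠ 0) :
    (Finset.univ.filter fun θ : Fin 3 → Fin s × (Fin 3 → Fin Z) =>
      ¬ Rk2 fun j => res q base (θ j)).card ≤ s ^ 3 * Z ^ 5 := by
  have hc : (Finset.univ : Finset ((Fin s × (Fin 3 → Fin Z)) × (Fin s × Fin Z) ×
      (Fin s × Fin Z))).card = s ^ 3 * Z ^ 5 := by
    simp only [Finset.card_univ, Fintype.card_prod, Fintype.card_pi, Fintype.card_fin,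
      Finset.prod_const]
    ring
  rw [← hc]
  apply Finset.card_le_card_of_injOn
    (fun θ => (θ 0, ((θ 1).1, (θ 1).2 0), ((θ 2).1, (θ 2).2 0))) (by simp)
  intro θ hθ θ' hθ' e
  replace hθ := (Finset.mem_filter.1 (Finset.mem_coe.1 hθ)).2
  replace hθ' := (Finset.mem_filter.1 (Finset.mem_coe.1 hθ')).2
  simp only [Prod.mk.injEq] at e
  have key : ∀ j, (θ j).1 = (θ' j).1 → (θ j).2 0 = (θ' j).2 0 → θ j = θ' j := by
    intro j e1 e2
    refine Prod.ext e1 ?_
    funext c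
    have a1 : cr (res q base (θ 0)) (res q base (θ j)) = 0 := by
      by_contra h
      exact hθ ⟨0, j, h⟩
    have a2 : cr (res q base (θ' 0)) (res q base (θ' j)) = 0 := by
      by_contra h
      exact hθ' ⟨0, j, h⟩
    have b1 := (cr_eq_zero_iff _ _).1 a1 0 c
    have b2 := (cr_eq_zero_iff _ _).1 a2 0 c
    have b3 : res q base (θ j) 0 = res q base (θ' j) 0 := by simp only [res, e1, e2]
    rw [← e.1, ← b3, ← b1] at b2
    have b4 := mul_left_cancel₀ (h0 _) b2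
    simp only [res, e1] at b4
    rw [ZMod.intCast_eq_intCast_iff_dvd_sub] at b4
    have c1 := ((θ j).2 c).2
    have c2 := ((θ' j).2 c).2
    have b5 := Int.eq_zero_of_abs_lt_dvd b4 (by rw [abs_lt]; omega)
    exact Fin.ext (by omega)
  exact ext3 e.1 (key 1 e.2.1.1 e.2.1.2) (key 2 e.2.2.1 e.2.2.2)

lemma sum_wt (q p s Z K B J : ℕ) [Fact q.Prime] [Fact p.Prime] (hqp : q < p) (hK : 2 ≤ K)
    (hJ : 18 * B ^ 2 < 2 ^ J) (base : Fin s → Fin 3 → ℤ) (hZ : Z ≤ q) (hs : s * q ≤ Z ^ 4)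
    (h0 : ∀ θ : Fin s × (Fin 3 → Fin Z), res q base θ 0 ≠ 0)
    (hfar : ∀ θ : Fin 3 → Fin s × (Fin 3 → Fin Z), (Function.Injective fun j => (θ j).1) →
      ∀ d : ℤ, (d : ZMod q) = det3 (fun j => res q base (θ j)) → (q : ℤ) ≤ K * |d|) :
    ∑ θ : Fin 3 → Fin s × (Fin 3 → Fin Z), wt B K q p (fun j => res q base (θ j))
      ≤ 41990400 * J * B ^ 6 * (4 * (s ^ 2 * Z ^ 9)) := by
  classical
  have h1 : ∀ θ ∈ (Finset.univ : Finset (Fin 3 → Fin s × (Fin 3 → Fin Z))),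
      wt B K q p (fun j => res q base (θ j)) ≤ 41990400 * J * B ^ 6 *
        ((if ¬ Function.Injective fun j => (θ j).1 then 1 else 0) +
          q * (if ¬ Rk2 fun j => res q base (θ j) then 1 else 0)) := by
    intro θ _
    by_cases hi : Function.Injective fun j => (θ j).1
    · rw [wt_zero (hfar θ hi)]
      exact Nat.zero_le _
    · by_cases hr : Rk2 fun j => res q base (θ j)
      · have := wt_rk2 (p := p) J hJ hK hqp hr
        rw [if_pos hi, if_neg (not_not.2 hr)]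
        simp only [mul_zero, add_zero, mul_one]
        exact_mod_cast this
      · have := wt_rk1 (p := p) J hJ hK hqp hr (h0 _)
        have e : wt B K q p (fun j => res q base (θ j)) ≤ 41990400 * J * B ^ 6 * q := by
          exact_mod_cast this
        rw [if_pos hi, if_pos hr]
        exact e.trans (Nat.mul_le_mul_left _ (by omega))
  refine (Finset.sum_le_sum h1).trans ?_
  rw [← Finset.mul_sum, Finset.sum_add_distrib, ← Finset.mul_sum, ← Finset.card_filter,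
    ← Finset.card_filter]
  apply Nat.mul_le_mul_left
  have h2 := card_coinc s Z
  have h3 := card_rk1 q s Z base hZ h0
  have h4 : q * (s ^ 3 * Z ^ 5) ≤ s ^ 2 * Z ^ 9 := by
    calc q * (s ^ 3 * Z ^ 5) = (s * q) * (s ^ 2 * Z ^ 5) := by ring
      _ ≤ Z ^ 4 * (s ^ 2 * Z ^ 5) := Nat.mul_le_mul_right _ hs
      _ = _ := by ring
  have h5 := (Nat.mul_le_mul_left q h3).trans h4
  have h6 := Nat.add_le_add h2 h5
  refine le_trans (le_of_eq ?_) (h6.trans (by omega))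
  congr

/-- A point of the plane on which `f` takes the value one. -/
def pl {F : Type*} [Field F] (f : Fin 3 → F) (b : F × F) : Fin 3 → F :=
  ![(1 - f 1 * b.1 - f 2 * b.2) / f 0, b.1, b.2]

/-- A point of the sheared paraboloid. -/
def cv {F : Type*} [Field F] (n : F) (m : (Fin 3 → F) × F) (a : F × F) : Fin 3 → F :=
  ![dot m.1 (cp n a) + m.2, a.1, a.2]

lemma sg_cr_cast (r : ℕ) (u v : Fin 3 → ℤ) :
    sg (cr (red r u) (red r v)) = ((sg (cr u v) : ℤ) : ZMod r) := by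
  simp [sg, red]

set_option maxHeartbeats 1000000 in
theorem model (q p r s Z K J n : ℕ) [hq : Fact q.Prime] [hp : Fact p.Prime] [hr : Fact r.Prime]
    (hqp : q < p) (hpr : p < r) (hK : 2 ≤ K) (hs0 : 0 < s) (hZ0 : 0 < Z)
    (hJ : 18 * (2 * (q * p * r)) ^ 2 < 2 ^ J) (base : Fin s → Fin 3 → ℤ) (hZ : Z ≤ q)
    (hs : s * q ≤ Z ^ 4)
    (h0 : ∀ θ : Fin s × (Fin 3 → Fin Z), res q base θ 0 ≠ 0)
    (hfar : ∀ θ : Fin 3 → Fin s × (Fin 3 → Fin Z), (Function.Injective fun j => (θ j).1) →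
      ∀ d : ℤ, (d : ZMod q) = det3 (fun j => res q base (θ j)) → (q : ℤ) ≤ K * |d|)
    (hn2 : 8 * n ≤ r ^ 2) (hn3 : 2751882854400 * J * n ^ 2 * q ≤ s * (q * p * r) ^ 3) :
    ∃ v : Fin n → Fin 3 → ℤ,
      (∀ i, ((q * p * r : ℕ) : ℤ) ≤ v i 0 ∧ v i 0 ≤ 2 * ((q * p * r : ℕ) : ℤ) ∧
        0 ≤ v i 1 ∧ v i 1 ≤ ((q * p * r : ℕ) : ℤ) ∧ 0 ≤ v i 2 ∧ v i 2 ≤ ((q * p * r : ℕ) : ℤ)) ∧
      ∀ e : Fin 3 → Fin n, Function.Injective e → (q : ℤ) ≤ K * |det3 fun j => v (e j)| := by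
  classical
  have hq2 := hq.out.two_le
  obtain ⟨ν, hν⟩ := FiniteField.exists_nonsquare (F := ZMod r) (by
    rw [ZMod.ringChar_zmod_n]; omega)
  choose crt hcrt using exists_crt q p r ((Nat.coprime_primes hq.out hp.out).2 hqp.ne)
    ((Nat.coprime_primes hq.out hr.out).2 (hqp.trans hpr).ne)
    ((Nat.coprime_primes hp.out hr.out).2 hpr.ne)
  obtain ⟨M, hM⟩ : ∃ M, M = q * p * r := ⟨_, rfl⟩
  rw [← hM] at hJ hn3 hcrt ⊢
  let Ω := (Fin s × (Fin 3 → Fin Z)) × (ZMod p × ZMod p) × (ZMod r × ZMod r)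
  let G := (Fin 3 → Fin 3 → ZMod q) × (Fin 3 → ZMod p) × ((Fin 3 → ZMod r) × ZMod r)
  let Γ : Finset G := (Finset.univ.filter fun g => det3 g = 1) ×ˢ nz0 (ZMod p) ×ˢ
    (nz0 (ZMod r) ×ˢ Finset.univ)
  obtain ⟨vert, hv0, hvq, hvp, hvr⟩ : ∃ vert : G → Ω → Fin 3 → ℤ,
      (∀ γ ω, (M : ℤ) ≤ vert γ ω 0 ∧ vert γ ω 0 ≤ 2 * (M : ℤ) ∧ 0 ≤ vert γ ω 1 ∧
        vert γ ω 1 ≤ M ∧ 0 ≤ vert γ ω 2 ∧ vert γ ω 2 ≤ M) ∧
      (∀ γ ω c, (vert γ ω c : ZMod q) = mv γ.1 (res q base ω.1) c) ∧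
      (∀ γ ω c, (vert γ ω c : ZMod p) = pl γ.2.1 ω.2.1 c) ∧
      (∀ γ ω c, (vert γ ω c : ZMod r) = cv ν γ.2.2 ω.2.2 c) := by
    refine ⟨fun γ ω c => crt (mv γ.1 (res q base ω.1) c) (pl γ.2.1 ω.2.1 c) (cv ν γ.2.2 ω.2.2 c)
      + if c = 0 then (M : ℤ) else 0, ?_, ?_, ?_, ?_⟩
    · intro γ ω
      have a0 := hcrt (mv γ.1 (res q base ω.1) 0) (pl γ.2.1 ω.2.1 0) (cv ν γ.2.2 ω.2.2 0)
      have a1 := hcrt (mv γ.1 (res q base ω.1) 1) (pl γ.2.1 ω.2.1 1) (cv ν γ.2.2 ω.2.2 1)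
      have a2 := hcrt (mv γ.1 (res q base ω.1) 2) (pl γ.2.1 ω.2.1 2) (cv ν γ.2.2 ω.2.2 2)
      simp only [if_true, show ((1 : Fin 3) = 0) = False by decide,
        show ((2 : Fin 3) = 0) = False by decide, if_false]
      omega
    · intro γ ω c
      push_cast
      rw [(hcrt _ _ _).2.2.1]
      split_ifs <;> simp [hM]
    · intro γ ω c
      push_cast
      rw [(hcrt _ _ _).2.2.2.1]
      split_ifs <;> simp [hM]
    · intro γ ω c
      push_cast
      rw [(hcrt _ _ _).2.2.2.2]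
      split_ifs <;> simp [hM]
  let B3 : G → Finset (Fin 3 → Ω) := fun γ => Finset.univ.filter fun w =>
    (Function.Injective fun j => (w j).2.2) ∧ (K : ℤ) * |det3 fun j => vert γ (w j)| < q
  let B2 : Finset (Fin 2 → Ω) := Finset.univ.filter fun w => (w 0).2.2 = (w 1).2.2
  let al : (Fin 3 → Fin 3 → ℤ) → Fin 3 → ZMod r × ZMod r := fun Y j => (Y 1 j, Y 2 j)
  let cs : (Fin 3 → Fin 3 → ℤ) → Finset ((Fin 3 → ZMod r) × ZMod r) := fun Y =>
    if Function.Injective (al Y) then caps ν (al Y) (fun j => (Y 0 j : ZMod r)) else ∅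
  have hcs : ∀ Y, (cs Y).card ≤ r := by
    intro Y
    simp only [cs]
    split_ifs with h
    · simpa [ZMod.card] using card_caps ν hν _ h (fun j => (Y 0 j : ZMod r))
    · simp
  have hsum : ∑ γ ∈ Γ, (B3 γ).card ≤ (∑ θ : Fin 3 → Fin s × (Fin 3 → Fin Z),
      wt (2 * M) K q p (fun j => res q base (θ j))) * r := by
    rw [← Finset.card_sigma]
    have hc : ((Finset.univ : Finset (Fin 3 → Fin s × (Fin 3 → Fin Z))).sigma fun θ =>
        (good (2 * M) K q).sigma fun Y => (stab (fun j => res q base (θ j)) (colq q Y)) ×ˢ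
          (ones (colq p Y)) ×ˢ cs Y).card ≤ (∑ θ : Fin 3 → Fin s × (Fin 3 → Fin Z),
        wt (2 * M) K q p (fun j => res q base (θ j))) * r := by
      rw [Finset.card_sigma, Finset.sum_mul]
      refine Finset.sum_le_sum fun θ _ => ?_
      rw [Finset.card_sigma, wt, Finset.sum_mul]
      refine Finset.sum_le_sum fun Y _ => ?_
      rw [Finset.card_product, Finset.card_product, mul_assoc]
      exact Nat.mul_le_mul_left _ (Nat.mul_le_mul_left _ (hcs Y))
    refine le_trans ?_ hc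
    apply Finset.card_le_card_of_injOn (fun x : (Σ _ : G, Fin 3 → Ω) =>
      (⟨fun j => (x.2 j).1, ⟨fun c j => vert x.1 (x.2 j) c, x.1⟩⟩ :
        Σ _ : Fin 3 → Fin s × (Fin 3 → Fin Z), Σ _ : Fin 3 → Fin 3 → ℤ, G))
    · rintro ⟨γ, w⟩ hx
      obtain ⟨hγ, hw⟩ := Finset.mem_sigma.1 (Finset.mem_coe.1 hx)
      obtain ⟨hw1, hw2⟩ := (Finset.mem_filter.1 hw).2
      obtain ⟨hg, hγ'⟩ := Finset.mem_product.1 hγ
      obtain ⟨hφ, hγ''⟩ := Finset.mem_product.1 hγ'
      have hμ := (Finset.mem_filter.1 (Finset.mem_product.1 hγ'').1).2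
      replace hφ := (Finset.mem_filter.1 hφ).2
      replace hg := (Finset.mem_filter.1 hg).2
      dsimp only at hw1 hw2 hg hφ hμ
      have hal : al (fun c j => vert γ (w j) c) = fun j => (w j).2.2 := by
        funext j
        simp only [al, hvr, cv, Matrix.cons_val_zero, Matrix.cons_val_one, Matrix.cons_val]
      refine Finset.mem_coe.2 (Finset.mem_sigma.2 ⟨Finset.mem_univ _, Finset.mem_sigma.2
        ⟨?_, Finset.mem_product.2 ⟨?_, Finset.mem_product.2 ⟨?_, ?_⟩⟩⟩⟩)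
      · dsimp only
        rw [mem_good]
        refine ⟨fun c j => ?_, ?_, ?_⟩
        · have := hv0 γ (w j)
          revert c
          refine forall3 ?_ ?_ ?_ <;> push_cast <;> omega
        · rw [det3_transpose (fun j => vert γ (w j))]
          exact hw2
        · obtain ⟨i, j, h⟩ := cap_rows ν hν _ hw1 γ.2.2.1 γ.2.2.2 hμ
            (fun c => red r fun j => vert γ (w j) c) (fun j => hvr γ (w j) 0)
            (fun j => hvr γ (w j) 1) (fun j => hvr γ (w j) 2)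
          refine ⟨i, j, fun h' => h ?_⟩
          rw [sg_cr_cast, h', Int.cast_zero]
      · rw [mem_stab]
        refine ⟨hg, fun j => ?_⟩
        funext c
        exact (hvq γ (w j) c).symm
      · rw [mem_ones]
        intro j
        simp only [dot, colq, hvp, pl, Matrix.cons_val_zero, Matrix.cons_val_one, Matrix.cons_val]
        field_simp
        ring
      · simp only [cs, hal, if_pos hw1, caps, Finset.mem_filter, Finset.mem_univ, true_and]
        intro j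
        exact (hvr γ (w j) 0).symm
    · rintro ⟨γ, w⟩ _ ⟨γ', w'⟩ _ h
      simp only [Sigma.mk.injEq, heq_eq_eq] at h ⊢
      obtain ⟨h1, h2, h3⟩ := h
      subst h3
      refine ⟨rfl, ?_⟩
      funext j
      have e1 := congrFun (congrFun h2 1) j
      have e2 := congrFun (congrFun h2 2) j
      refine Prod.ext (congrFun h1 j) (Prod.ext (Prod.ext ?_ ?_) (Prod.ext ?_ ?_))
      · exact (hvp γ (w j) 1).symm.trans ((congrArg _ e1).trans (hvp γ (w' j) 1))
      · exact (hvp γ (w j) 2).symm.trans ((congrArg _ e2).trans (hvp γ (w' j) 2))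
      · exact (hvr γ (w j) 1).symm.trans ((congrArg _ e1).trans (hvr γ (w' j) 1))
      · exact (hvr γ (w j) 2).symm.trans ((congrArg _ e2).trans (hvr γ (w' j) 2))
  have hΓ : q ^ 8 * p ^ 3 * r ^ 4 ≤ 16 * Γ.card := by
    have a1 := card_SL (F := ZMod q)
    have a2 := card_nz0 (F := ZMod p)
    have a3 := card_nz0 (F := ZMod r)
    rw [ZMod.card] at a1 a2 a3
    have a4 : q ^ 8 ≤ 4 * ((q - 1) ^ 2 * q ^ 6) := by
      have : q ^ 2 ≤ (2 * (q - 1)) ^ 2 := Nat.pow_le_pow_left (by omega) 2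
      calc q ^ 8 = q ^ 2 * q ^ 6 := by ring
        _ ≤ (2 * (q - 1)) ^ 2 * q ^ 6 := Nat.mul_le_mul_right _ this
        _ = _ := by ring
    have a5 := a4.trans (Nat.mul_le_mul_left 4 a1)
    have a6 : Γ.card = (Finset.univ.filter fun g : Fin 3 → Fin 3 → ZMod q => det3 g = 1).card *
        ((nz0 (ZMod p)).card * ((nz0 (ZMod r)).card * r)) := by
      refine (Finset.card_product _ _).trans ?_
      rw [Finset.card_product, Finset.card_product, Finset.card_univ, ZMod.card]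
    rw [a6]
    calc q ^ 8 * p ^ 3 * r ^ 4 = q ^ 8 * (p ^ 3 * (r ^ 3 * r)) := by ring
      _ ≤ _ := Nat.mul_le_mul a5 (Nat.mul_le_mul a2 (Nat.mul_le_mul_right r a3))
      _ = _ := by ring
  have hp0 := hp.out.pos
  have hr0 := hr.out.pos
  have hΓne : Γ.Nonempty := by
    rw [← Finset.card_pos]
    have : 0 < q ^ 8 * p ^ 3 * r ^ 4 := by positivity
    omega
  have hS := hsum.trans (Nat.mul_le_mul_right r (sum_wt q p s Z K (2 * M) J hqp hK hJ base hZ hs
    h0 hfar))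
  obtain ⟨γ, -, hγ⟩ : ∃ γ ∈ Γ, (B3 γ).card * Γ.card
      ≤ 41990400 * J * (2 * M) ^ 6 * (4 * (s ^ 2 * Z ^ 9)) * r := by
    apply Finset.exists_le_of_sum_le hΓne
    rw [← Finset.sum_mul, Finset.sum_const, smul_eq_mul, mul_comm]
    exact Nat.mul_le_mul_left _ hS
  have hΩ : Fintype.card Ω = s * Z ^ 3 * p ^ 2 * r ^ 2 := by
    simp only [Ω, Fintype.card_prod, Fintype.card_pi, Fintype.card_fin, Finset.prod_const,
      Finset.card_univ, ZMod.card]
    ring
  have hB2 : B2.card ≤ Fintype.card Ω * (s * Z ^ 3 * p ^ 2) := by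
    have hc : (Finset.univ : Finset (Ω × (Fin s × (Fin 3 → Fin Z)) × (ZMod p × ZMod p))).card
        = Fintype.card Ω * (s * Z ^ 3 * p ^ 2) := by
      rw [Finset.card_univ, Fintype.card_prod]
      simp only [Fintype.card_prod, Fintype.card_pi, Fintype.card_fin, Finset.prod_const,
        Finset.card_univ, ZMod.card]
      ring
    rw [← hc]
    apply Finset.card_le_card_of_injOn (fun w => (w 0, (w 1).1, (w 1).2.1)) (by simp)
    intro w hw w' hw' e
    replace hw := (Finset.mem_filter.1 (Finset.mem_coe.1 hw)).2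
    replace hw' := (Finset.mem_filter.1 (Finset.mem_coe.1 hw')).2
    simp only [Prod.mk.injEq] at e
    funext i
    fin_cases i
    · exact e.1
    · refine Prod.ext e.2.1 (Prod.ext e.2.2 ?_)
      exact hw.symm.trans ((congrArg (fun x : Ω => x.2.2) e.1).trans hw')
  haveI : Nonempty Ω := ⟨((⟨0, hs0⟩, fun _ => ⟨0, hZ0⟩), (0, 0), (0, 0))⟩
  have hB3 : 16 * n ^ 2 * (B3 γ).card ≤ Fintype.card Ω ^ 3 := by
    apply Nat.le_of_mul_le_mul_right (c := q ^ 8 * p ^ 3 * r ^ 4 * q) _ (by positivity)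
    calc 16 * n ^ 2 * (B3 γ).card * (q ^ 8 * p ^ 3 * r ^ 4 * q)
        ≤ 16 * n ^ 2 * (B3 γ).card * (16 * Γ.card * q) := by gcongr
      _ = 256 * n ^ 2 * q * ((B3 γ).card * Γ.card) := by ring
      _ ≤ 256 * n ^ 2 * q * (41990400 * J * (2 * M) ^ 6 * (4 * (s ^ 2 * Z ^ 9)) * r) :=
          Nat.mul_le_mul_left _ hγ
      _ = (2751882854400 * J * n ^ 2 * q) * (M ^ 6 * s ^ 2 * Z ^ 9 * r) := by ring
      _ ≤ (s * M ^ 3) * (M ^ 6 * s ^ 2 * Z ^ 9 * r) := Nat.mul_le_mul_right _ hn3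
      _ = _ := by rw [hΩ, hM]; ring
  obtain ⟨f, hf2, hf3⟩ := deletion B2 (B3 γ) n (by
    have a1 : 2 * ((2 * n) ^ 2 * B2.card * Fintype.card Ω) ≤ n * Fintype.card Ω ^ 3 := by
      calc 2 * ((2 * n) ^ 2 * B2.card * Fintype.card Ω)
          = n * (8 * n) * B2.card * Fintype.card Ω := by ring
        _ ≤ n * r ^ 2 * (Fintype.card Ω * (s * Z ^ 3 * p ^ 2)) * Fintype.card Ω := by gcongr
        _ = _ := by rw [hΩ]; ring
    have a2 : 2 * ((2 * n) ^ 3 * (B3 γ).card) ≤ n * Fintype.card Ω ^ 3 := by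
      calc 2 * ((2 * n) ^ 3 * (B3 γ).card) = n * (16 * n ^ 2 * (B3 γ).card) := by ring
        _ ≤ _ := Nat.mul_le_mul_left _ hB3
    omega)
  refine ⟨fun i => vert γ (f i), fun i => hv0 γ (f i), fun e he => ?_⟩
  by_contra hlt
  apply hf3 e he
  refine Finset.mem_filter.2 ⟨Finset.mem_univ _, ?_, not_le.1 hlt⟩
  intro i j hij
  by_contra hne
  apply hf2 ![e i, e j]
  · have := he.ne hne
    intro a b hab
    fin_cases a <;> fin_cases b
    · rfl
    · exact absurd hab this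
    · exact absurd hab.symm this
    · rfl
  · exact Finset.mem_filter.2 ⟨Finset.mem_univ _, hij⟩

end Vale.Agent.P036
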