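import Vale.Agent.P036.Basic

namespace Vale.Agent.P036

open Finset

open Classical in
/-- Points of the subgroup `L` in the cube of radius `B` orthogonal to `x`. -/
noncomputable def slice (L : AddSubgroup (Fin 3 → ℤ)) (B : ℕ) (x : Fin 3 → ℤ) :
    Finset (Fin 3 → ℤ) := (cube B).filter fun y => y ∈ L ∧ dot y x = 0

lemma mem_slice (L : AddSubgroup (Fin 3 → ℤ)) (B : ℕ) (x y : Fin 3 → ℤ) :
    y ∈ slice L B x ↔ sn y ≤ B ∧ y ∈ L ∧ dot y x = 0 := by
  classical
  unfold slice
  simp only [Finset.mem_filter, mem_cube]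

lemma natAbs_mul_sn (m : ℤ) (x w : Fin 3 → ℤ) (h : ∀ c, w c = m * x c) :
    sn w = m.natAbs * sn x := by
  unfold sn
  rw [h 0, h 1, h 2, Int.natAbs_mul, Int.natAbs_mul, Int.natAbs_mul, ← Nat.mul_max_mul_left,
    ← Nat.mul_max_mul_left]

lemma plane (L : AddSubgroup (Fin 3 → ℤ)) (k : ℕ) (hk : 0 < k)
    (hL : ∀ u ∈ L, ∀ v ∈ L, ∀ c, (k : ℤ) ∣ cr u v c) (x b : Fin 3 → ℤ) (hb : dot b x = 1) (B : ℕ)
    (u v : Fin 3 → ℤ) (hu : u ∈ slice L B x) (hv : v ∈ slice L B x) (hne : cr u v ≠ 0) :
    (slice L B x).card * (k * sn x) ≤ 18 * B ^ 2 := by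
  classical
  have hu0 : u ≠ 0 := by
    rintro rfl
    apply hne
    refine ext3 ?_ ?_ ?_ <;> simp
  obtain ⟨e, he, hmin⟩ := Finset.exists_min_image ((slice L B x).filter (· ≠ 0)) sn
    ⟨u, Finset.mem_filter.2 ⟨hu, hu0⟩⟩
  rw [Finset.mem_filter] at he
  obtain ⟨he, he0⟩ := he
  have heY := (mem_slice _ _ _ _).1 he
  set lam := sn e with hlam
  have hlam0 : 0 < lam := sn_pos e he0
  have hlamB : lam ≤ B := heY.1
  have hx0 : x ≠ 0 := by
    rintro rfl
    simp [dot] at hb
  have hsx : 0 < sn x := sn_pos x hx0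
  set io : (Fin 3 → ℤ) → ℤ := fun y => dot b (cr e y) with hio
  have hcr : ∀ y, dot y x = 0 → ∀ c, cr e y c = io y * x c := fun y hy c =>
    cr_eq_smul e y x b hb heY.2.2 hy c
  have hbd : ∀ y ∈ slice L B x, (io y).natAbs * sn x ≤ 2 * (lam * B) := by
    intro y hy
    have hy' := (mem_slice _ _ _ _).1 hy
    rw [← natAbs_mul_sn _ _ _ (hcr y hy'.2.2)]
    exact (sn_cr_le e y).trans (Nat.mul_le_mul_left _ (Nat.mul_le_mul_left _ hy'.1))
  have hdv : ∀ y ∈ slice L B x, (k : ℤ) ∣ io y := by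
    intro y hy
    have hy' := (mem_slice _ _ _ _).1 hy
    have h0 := hL e heY.2.1 y hy'.2.1 0
    have h1 := hL e heY.2.1 y hy'.2.1 1
    have h2 := hL e heY.2.1 y hy'.2.1 2
    simp only [hio, dot]
    exact dvd_add (dvd_add (h0.mul_left _) (h1.mul_left _)) (h2.mul_left _)
  have hex : ∃ y ∈ slice L B x, io y ≠ 0 := by
    by_contra h
    push Not at h
    apply hne
    apply cr_trans e u v he0
    · funext c
      rw [hcr u ((mem_slice _ _ _ _).1 hu).2.2 c, h u hu]
      simp
    · funext c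
      rw [hcr v ((mem_slice _ _ _ _).1 hv).2.2 c, h v hv]
      simp
  obtain ⟨y0, hy0, hy0'⟩ := hex
  have hks : k * sn x ≤ 2 * (lam * B) := by
    have h1 : k ≤ (io y0).natAbs := by
      have := Int.natAbs_le_of_dvd_ne_zero (hdv y0 hy0) hy0'
      simpa using this
    exact (Nat.mul_le_mul_right _ h1).trans (hbd y0 hy0)
  set m : ℕ := 2 * (lam * B) / (k * sn x) with hm
  have hkx : 0 < k * sn x := Nat.mul_pos hk hsx
  have hm1 : 1 ≤ m := (Nat.le_div_iff_mul_le hkx).2 (by simpa using hks)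
  have hm2 : m * (k * sn x) ≤ 2 * (lam * B) := Nat.div_mul_le_self _ _
  obtain ⟨c, hc⟩ := exists_sn e
  set t : ℕ := 2 * B / lam with ht
  have ht2 : t * lam ≤ 2 * B := Nat.div_mul_le_self _ _
  have hcard : (slice L B x).card ≤ (2 * m + 1) * (t + 1) := by
    have hc2 : ((Finset.Icc (-(m : ℤ)) m) ×ˢ (Finset.range (t + 1))).card
        = (2 * m + 1) * (t + 1) := by
      rw [Finset.card_product, Int.card_Icc, Finset.card_range]
      congr 1
      omega
    rw [← hc2]
    apply Finset.card_le_card_of_injOn (fun y => (io y / k, (y c + B).toNat / lam))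
    · intro y hy
      have hy1 : y ∈ slice L B x := hy
      have hy' := (mem_slice _ _ _ _).1 hy1
      simp only [Finset.coe_product, Set.mem_prod, Finset.mem_coe, Finset.mem_Icc,
        Finset.mem_range]
      obtain ⟨j, hj⟩ := hdv y hy1
      have hj' : io y / k = j := by
        rw [hj, Int.mul_ediv_cancel_left _ (by exact_mod_cast hk.ne')]
      have hjm : j.natAbs ≤ m := by
        apply (Nat.le_div_iff_mul_le hkx).2
        have := hbd y hy1
        rw [hj, Int.natAbs_mul, Int.natAbs_natCast] at this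
        calc j.natAbs * (k * sn x) = k * j.natAbs * sn x := by ring
          _ ≤ _ := this
      refine ⟨by rw [hj']; omega, ?_⟩
      have h1 := (le_sn y c).trans hy'.1
      have h2 : (y c + B).toNat ≤ 2 * B := by omega
      have h3 : (y c + B).toNat / lam ≤ t := Nat.div_le_div_right h2
      omega
    · intro y hy y' hy' hyy
      have hy1 : y ∈ slice L B x := hy
      have hy2 : y' ∈ slice L B x := hy'
      have ha := (mem_slice _ _ _ _).1 hy1
      have ha' := (mem_slice _ _ _ _).1 hy2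
      simp only [Prod.mk.injEq] at hyy
      obtain ⟨h1, h2⟩ := hyy
      have hio : io y = io y' := by
        obtain ⟨j, hj⟩ := hdv y hy1
        obtain ⟨j', hj'⟩ := hdv y' hy2
        have hk' : (k : ℤ) ≠ 0 := by exact_mod_cast hk.ne'
        rw [hj, hj', Int.mul_ediv_cancel_left _ hk', Int.mul_ediv_cancel_left _ hk'] at h1
        rw [hj, hj', h1]
      have hz : cr e (y - y') = 0 := by
        have e0 := hcr y ha.2.2
        have e1 := hcr y' ha'.2.2
        rw [hio] at e0
        refine ext3 ?_ ?_ ?_ <;> simp only [cr0, cr1, cr2, Pi.sub_apply, Pi.zero_apply]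
        · have := e0 0
          have := e1 0
          simp only [cr0] at *
          linarith
        · have := e0 1
          have := e1 1
          simp only [cr1] at *
          linarith
        · have := e0 2
          have := e1 2
          simp only [cr2] at *
          linarith
      have hlt : ((y - y') c).natAbs < lam := by
        have b1 := (le_sn y c).trans ha.1
        have b2 := (le_sn y' c).trans ha'.1
        have q1 := Nat.div_add_mod (y c + B).toNat lam
        have q2 := Nat.div_add_mod (y' c + B).toNat lam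
        have r1 := Nat.mod_lt (y c + B).toNat hlam0
        have r2 := Nat.mod_lt (y' c + B).toNat hlam0
        rw [h2] at q1
        simp only [Pi.sub_apply]
        generalize lam * ((y' c + B).toNat / lam) = w at *
        omega
      have hsn : sn (y - y') < lam := by
        obtain ⟨l, hl⟩ := exists_sn (y - y')
        have h3 := (cr_eq_zero_iff _ _).1 hz c l
        have h4 := congrArg Int.natAbs h3
        rw [Int.natAbs_mul, Int.natAbs_mul, hc, hl] at h4
        have h5 : (e l).natAbs * ((y - y') c).natAbs ≤ lam * ((y - y') c).natAbs :=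
          Nat.mul_le_mul_right _ (le_sn e l)
        have h6 : lam * sn (y - y') ≤ lam * ((y - y') c).natAbs := by
          rw [hlam]; rw [h4]; exact h5
        have h7 := Nat.le_of_mul_le_mul_left h6 hlam0
        omega
      by_contra hneq
      have hd : y - y' ∈ (slice L B x).filter (· ≠ 0) := by
        rw [Finset.mem_filter, mem_slice]
        refine ⟨⟨by omega, L.sub_mem ha.2.1 ha'.2.1, ?_⟩, sub_ne_zero.2 hneq⟩
        have e0 := ha.2.2
        have e1 := ha'.2.2
        simp only [dot, Pi.sub_apply] at *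
        linarith
      have := hmin _ hd
      omega
  have h3 : (2 * m + 1) * (k * sn x) ≤ 6 * (lam * B) := by nlinarith
  have h4 : (t + 1) * lam ≤ 3 * B := by nlinarith
  calc (slice L B x).card * (k * sn x) ≤ (2 * m + 1) * (t + 1) * (k * sn x) :=
        Nat.mul_le_mul_right _ hcard
    _ = ((2 * m + 1) * (k * sn x)) * (t + 1) := by ring
    _ ≤ 6 * (lam * B) * (t + 1) := Nat.mul_le_mul_right _ h3
    _ = 6 * B * ((t + 1) * lam) := by ring
    _ ≤ 6 * B * (3 * B) := Nat.mul_le_mul_left _ h4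
    _ = 18 * B ^ 2 := by ring

lemma dyadic (S : Finset (Fin 3 → ℤ)) (c : ℝ) (J : ℕ) (h0 : ∀ x ∈ S, x ≠ 0)
    (hJ : ∀ x ∈ S, sn x < 2 ^ J)
    (hc : ∀ X : ℕ, 1 ≤ X → (((S.filter fun x => sn x ≤ X).card : ℕ) : ℝ) ≤ c * (X : ℝ) ^ 3) :
    ∑ x ∈ S, 1 / ((sn x : ℕ) : ℝ) ^ 3 ≤ 8 * c * J := by
  classical
  have hmaps : ∀ x ∈ S, Nat.log 2 (sn x) ∈ Finset.range J := by
    intro x hx
    rw [Finset.mem_range]
    exact Nat.log_lt_of_lt_pow (sn_pos x (h0 x hx)).ne' (hJ x hx)
  rw [← Finset.sum_fiberwise_of_maps_to hmaps]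
  have : ∀ j ∈ Finset.range J, ∑ x ∈ S with Nat.log 2 (sn x) = j, 1 / ((sn x : ℕ) : ℝ) ^ 3
      ≤ 8 * c := by
    intro j _
    have h1 : ∀ x ∈ S.filter (fun x => Nat.log 2 (sn x) = j),
        1 / ((sn x : ℕ) : ℝ) ^ 3 ≤ 1 / ((2 : ℝ) ^ j) ^ 3 := by
      intro x hx
      rw [Finset.mem_filter] at hx
      have h2 : 2 ^ j ≤ sn x := by
        rw [← hx.2]
        exact Nat.pow_log_le_self 2 (sn_pos x (h0 x hx.1)).ne'
      have h3 : (2 : ℝ) ^ j ≤ ((sn x : ℕ) : ℝ) := by exact_mod_cast h2
      apply one_div_le_one_div_of_le (by positivity)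
      exact pow_le_pow_left₀ (by positivity) h3 3
    have h2 := Finset.sum_le_card_nsmul _ _ _ h1
    have h3 : (S.filter (fun x => Nat.log 2 (sn x) = j)).card
        ≤ (S.filter fun x => sn x ≤ 2 ^ (j + 1)).card := by
      apply Finset.card_le_card
      intro x hx
      rw [Finset.mem_filter] at hx ⊢
      refine ⟨hx.1, ?_⟩
      rw [← hx.2]
      exact (Nat.lt_pow_succ_log_self (by norm_num) _).le
    have h4 := hc (2 ^ (j + 1)) Nat.one_le_two_pow
    have h5 : ((S.filter (fun x => Nat.log 2 (sn x) = j)).card : ℝ)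
        ≤ c * ((2 : ℝ) ^ (j + 1)) ^ 3 := by
      refine le_trans (by exact_mod_cast h3) (h4.trans (le_of_eq ?_))
      push_cast
      ring
    refine h2.trans ?_
    rw [nsmul_eq_mul]
    calc _ ≤ c * ((2 : ℝ) ^ (j + 1)) ^ 3 * (1 / ((2 : ℝ) ^ j) ^ 3) :=
          mul_le_mul_of_nonneg_right h5 (by positivity)
      _ = 8 * c := by field_simp; ring
  refine (Finset.sum_le_card_nsmul _ _ _ this).trans (le_of_eq ?_)
  rw [Finset.card_range, nsmul_eq_mul]
  ring

end Vale.Agent.P036
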