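import Vale.Agent.P036.Basic

namespace Vale.Agent.P036

open Finset

section TR
variable {T R : Type*} [CommRing R]

/-- The function of three variables is a sum of `k` products of one variable functions. -/
def TR (k : ℕ) (F : (Fin 3 → T) → R) : Prop :=
  ∃ f : Fin k → T → Fin 3 → R, ∀ t, F t = ∑ i, f i (t 0) 0 * f i (t 1) 1 * f i (t 2) 2

lemma TR.single (j : Fin 3) (g : T → R) : TR 1 (fun t : Fin 3 → T => g (t j)) := by
  refine ⟨fun _ a c => if c = j then g a else 1, fun t => ?_⟩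
  revert j
  refine forall3 ?_ ?_ ?_ <;> simp

lemma TR.smul {k : ℕ} {F : (Fin 3 → T) → R} (h : TR k F) (c : R) : TR k (fun t => c * F t) := by
  obtain ⟨f, hf⟩ := h
  refine ⟨fun i a j => if j = 0 then c * f i a j else f i a j, fun t => ?_⟩
  simp only [hf, Finset.mul_sum]
  refine Finset.sum_congr rfl fun i _ => ?_
  simp
  ring

lemma TR.add {a b : ℕ} {F G : (Fin 3 → T) → R} (hF : TR a F) (hG : TR b G) :
    TR (a + b) (fun t => F t + G t) := by
  obtain ⟨f, hf⟩ := hF
  obtain ⟨g, hg⟩ := hG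
  refine ⟨Fin.addCases f g, fun t => ?_⟩
  rw [Fin.sum_univ_add]
  simp only [Fin.addCases_left, Fin.addCases_right, hf, hg]

lemma TR.mul {a b : ℕ} {F G : (Fin 3 → T) → R} (hF : TR a F) (hG : TR b G) :
    TR (a * b) (fun t => F t * G t) := by
  obtain ⟨f, hf⟩ := hF
  obtain ⟨g, hg⟩ := hG
  refine ⟨fun i x c => f (finProdFinEquiv.symm i).1 x c * g (finProdFinEquiv.symm i).2 x c,
    fun t => ?_⟩
  rw [← Equiv.sum_comp finProdFinEquiv]
  simp only [Equiv.symm_apply_apply, hf, hg, Finset.sum_mul_sum, Fintype.sum_prod_type]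
  refine Finset.sum_congr rfl fun i _ => Finset.sum_congr rfl fun j _ => ?_
  ring

lemma TR.sum {ι : Type*} (s : Finset ι) (k : ℕ) (F : ι → (Fin 3 → T) → R)
    (h : ∀ i, TR k (F i)) : TR (s.card * k) (fun t => ∑ i ∈ s, F i t) := by
  classical
  induction s using Finset.induction_on with
  | empty => exact ⟨fun _ _ _ => 0, fun t => by simp⟩
  | insert a s ha ih =>
    simp only [Finset.sum_insert ha, Finset.card_insert_of_notMem ha]
    have := (h a).add ih
    rwa [show k + s.card * k = (s.card + 1) * k by ring] at this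

lemma TR.prod {ι : Type*} (s : Finset ι) (k : ℕ) (F : ι → (Fin 3 → T) → R)
    (h : ∀ i, TR k (F i)) : TR (k ^ s.card) (fun t => ∏ i ∈ s, F i t) := by
  classical
  induction s using Finset.induction_on with
  | empty =>
    rw [Finset.card_empty, pow_zero]
    exact ⟨fun _ _ _ => 1, fun t => by simp⟩
  | insert a s ha ih =>
    simp only [Finset.prod_insert ha, Finset.card_insert_of_notMem ha]
    have := (h a).mul ih
    rwa [show k * k ^ s.card = k ^ (s.card + 1) by ring] at this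

lemma TR.det {n : ℕ} (M : T → Matrix (Fin n) (Fin n) R) (j j' : Fin 3) :
    TR ((Finset.univ : Finset (Equiv.Perm (Fin n))).card *
      (1 + 1) ^ (Finset.univ : Finset (Fin n)).card)
      (fun t : Fin 3 → T => (M (t j) - M (t j')).det) := by
  simp only [Matrix.det_apply']
  apply TR.sum
  intro σ
  apply TR.smul
  apply TR.prod
  intro i
  have := (TR.single j (fun a => M a (σ i) i)).add
    ((TR.single j' (fun a => M a (σ i) i)).smul (-1))
  simpa [sub_eq_add_neg] using this

end TR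

lemma exists_TR_det (n : ℕ) : ∃ k0 : ℕ, 0 < k0 ∧ ∀ (T R : Type) [CommRing R]
      (M : T → Matrix (Fin n) (Fin n) R) (j j' : Fin 3),
      TR k0 (fun t : Fin 3 → T => (M (t j) - M (t j')).det) :=
  ⟨_, Nat.mul_pos (Finset.card_pos.2 Finset.univ_nonempty) (pow_pos (Nat.succ_pos 1) _),
    fun _ _ _ M j j' => TR.det M j j'⟩

theorem tensor : ∃ k : ℕ, 0 < k ∧ ∀ (l : ℕ) [Fact l.Prime], 5 ≤ l →
    ∃ f : Fin k → Fin (l ^ 7) → Fin 3 → ZMod l, ∀ t : Fin 3 → Fin (l ^ 7), Function.Injective t →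
      ∑ i, det3 (fun j => f i (t j)) ≠ 0 := by
  obtain ⟨k0, hk, hdet⟩ := exists_TR_det 7
  refine ⟨k0 * k0 * k0, by positivity, fun l _ hl => ?_⟩
  let K := GaloisField l 7
  have hc : Nat.card K = l ^ 7 := GaloisField.card l 7 (by norm_num)
  let e : K ≃ Fin (l ^ 7) := Finite.equivFinOfCardEq hc
  let b : Module.Basis (Fin 7) (ZMod l) K :=
    Module.finBasisOfFinrankEq _ _ (GaloisField.finrank l (by norm_num))
  let M : Fin (l ^ 7) → Matrix (Fin 7) (Fin 7) (ZMod l) :=
    fun a => Algebra.leftMulMatrix b (e.symm a)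
  let N : Fin (l ^ 7) → Fin (l ^ 7) → ZMod l := fun a a' => (M a - M a').det
  have hN : ∀ a a', a ≠ a' → N a a' ≠ 0 := by
    intro a a' h
    have : N a a' = Algebra.norm (ZMod l) (e.symm a - e.symm a') := by
      rw [Algebra.norm_eq_matrix_det b, map_sub]
    rw [this, Algebra.norm_ne_zero_iff, sub_ne_zero]
    exact e.symm.injective.ne h
  have hanti : ∀ a a', N a a' = - N a' a := by
    intro a a'
    simp only [N]
    rw [← neg_sub, Matrix.det_neg]
    simp only [Fintype.card_fin]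
    ring
  obtain ⟨f, hf⟩ := ((hdet _ _ M 0 1).mul (hdet _ _ M 1 2)).mul (hdet _ _ M 2 0)
  refine ⟨f, fun t ht => ?_⟩
  have h012 := hf ![t 0, t 1, t 2]
  have h120 := hf ![t 1, t 2, t 0]
  have h201 := hf ![t 2, t 0, t 1]
  have h102 := hf ![t 1, t 0, t 2]
  have h021 := hf ![t 0, t 2, t 1]
  have h210 := hf ![t 2, t 1, t 0]
  simp only [Matrix.cons_val_zero, Matrix.cons_val_one,
    Matrix.cons_val] at h012 h120 h201 h102 h021 h210
  change N _ _ * N _ _ * N _ _ = _ at h012 h120 h201 h102 h021 h210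
  have key : ∑ i, det3 (fun j => f i (t j)) = 6 * (N (t 0) (t 1) * N (t 1) (t 2) * N (t 2) (t 0)) := by
    have : ∑ i, det3 (fun j => f i (t j)) =
        ∑ i, f i (t 0) 0 * f i (t 1) 1 * f i (t 2) 2 + ∑ i, f i (t 1) 0 * f i (t 2) 1 * f i (t 0) 2
        + ∑ i, f i (t 2) 0 * f i (t 0) 1 * f i (t 1) 2
        - ∑ i, f i (t 1) 0 * f i (t 0) 1 * f i (t 2) 2
        - ∑ i, f i (t 0) 0 * f i (t 2) 1 * f i (t 1) 2
        - ∑ i, f i (t 2) 0 * f i (t 1) 1 * f i (t 0) 2 := by
      simp only [← Finset.sum_add_distrib, ← Finset.sum_sub_distrib]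
      refine Finset.sum_congr rfl fun i _ => ?_
      simp only [det3, dot, cr0, cr1, cr2]
      ring
    rw [this, ← h012, ← h120, ← h201, ← h102, ← h021, ← h210, hanti (t 1) (t 0),
      hanti (t 0) (t 2), hanti (t 2) (t 1)]
    ring
  rw [key]
  have h6 : (6 : ZMod l) ≠ 0 := by
    intro h
    have h' : ((6 : ℕ) : ZMod l) = 0 := by exact_mod_cast h
    rw [ZMod.natCast_eq_zero_iff] at h'
    have h1 := Nat.le_of_dvd (by norm_num) h'
    have hp : l.Prime := Fact.out
    rcases (show l = 5 ∨ l = 6 by omega) with h2 | h2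
    · rw [h2] at h'
      omega
    · rw [h2] at hp
      norm_num at hp
  exact mul_ne_zero h6 (mul_ne_zero (mul_ne_zero (hN _ _ (ht.ne (by decide)))
    (hN _ _ (ht.ne (by decide)))) (hN _ _ (ht.ne (by decide))))

end Vale.Agent.P036
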