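import Vale.Agent.P036.Count
import Vale.Agent.P036.Field

namespace Vale.Agent.P036

open Finset

/-- Columns of an integer matrix, reduced. -/
def colq (q : ℕ) (Y : Fin 3 → Fin 3 → ℤ) : Fin 3 → Fin 3 → ZMod q := fun j c => (Y c j : ZMod q)

lemma det3_colq (q : ℕ) (Y : Fin 3 → Fin 3 → ℤ) : det3 (colq q Y) = ((det3 Y : ℤ) : ZMod q) := by
  simp only [det3, dot, cr0, cr1, cr2, colq]
  push_cast
  ring

lemma cr_red (q : ℕ) (u v : Fin 3 → ℤ) (c : Fin 3) :
    cr (red q u) (red q v) c = ((cr u v c : ℤ) : ZMod q) := by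
  revert c
  refine forall3 ?_ ?_ ?_ <;> simp [red]

/-- Integer vectors whose reduction is parallel to `a`. -/
def par (q : ℕ) (a : Fin 3 → ZMod q) : AddSubgroup (Fin 3 → ℤ) where
  carrier := {y | cr a (red q y) = 0}
  zero_mem' := by
    refine ext3 ?_ ?_ ?_ <;> simp [red]
  add_mem' := by
    intro u v hu hv
    have h0 := congrFun hu
    have h1 := congrFun hv
    have e0 := h0 0
    have e1 := h0 1
    have e2 := h0 2
    have d0 := h1 0
    have d1 := h1 1
    have d2 := h1 2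
    simp only [cr0, cr1, cr2, red, Pi.zero_apply] at e0 e1 e2 d0 d1 d2
    refine ext3 ?_ ?_ ?_ <;>
      simp only [red, cr0, cr1, cr2, Pi.add_apply, Pi.zero_apply, Int.cast_add]
    · linear_combination e0 + d0
    · linear_combination e1 + d1
    · linear_combination e2 + d2
  neg_mem' := by
    intro u hu
    have h0 := congrFun hu
    have e0 := h0 0
    have e1 := h0 1
    have e2 := h0 2
    simp only [cr0, cr1, cr2, red, Pi.zero_apply] at e0 e1 e2
    refine ext3 ?_ ?_ ?_ <;>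
      simp only [red, cr0, cr1, cr2, Pi.neg_apply, Pi.zero_apply, Int.cast_neg]
    · linear_combination -e0
    · linear_combination -e1
    · linear_combination -e2

lemma mem_par (q : ℕ) (a : Fin 3 → ZMod q) (y : Fin 3 → ℤ) :
    y ∈ par q a ↔ cr a (red q y) = 0 := Iff.rfl

lemma par_dvd (q : ℕ) [Fact q.Prime] (a : Fin 3 → ZMod q) (ha : a ≠ 0) (u : Fin 3 → ℤ)
    (hu : u ∈ par q a) (v : Fin 3 → ℤ) (hv : v ∈ par q a) (c : Fin 3) : (q : ℤ) ∣ cr u v c := by
  have := congrFun (cr_trans a _ _ ha hu hv) c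
  rw [cr_red] at this
  exact (ZMod.intCast_zmod_eq_zero_iff_dvd _ _).1 this

/-- Matrices in the box with small determinant whose columns are not on a line. -/
noncomputable def good (B K q : ℕ) : Finset (Fin 3 → Fin 3 → ℤ) :=
  (Fintype.piFinset fun _ => Fintype.piFinset fun _ => Finset.Icc (0 : ℤ) B).filter
    fun Y => (K : ℤ) * |det3 Y| < q ∧ ∃ i j, sg (cr (Y i) (Y j)) ≠ 0

lemma mem_good (B K q : ℕ) (Y : Fin 3 → Fin 3 → ℤ) : Y ∈ good B K q ↔
    (∀ c j, 0 ≤ Y c j ∧ Y c j ≤ B) ∧ (K : ℤ) * |det3 Y| < q ∧ ∃ i j, sg (cr (Y i) (Y j)) ≠ 0 := by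
  simp only [good, Finset.mem_filter, Fintype.mem_piFinset, Finset.mem_Icc]

/-- The weighted count of bad integer matrices over a template. -/
noncomputable def wt (B K q p : ℕ) [Fact q.Prime] [Fact p.Prime] (ρ : Fin 3 → Fin 3 → ZMod q) :
    ℕ := ∑ Y ∈ good B K q, (stab ρ (colq q Y)).card * (ones (colq p Y)).card

/-- The support of the weighted count. -/
noncomputable def supp (B K q p : ℕ) [Fact q.Prime] [Fact p.Prime]
    (ρ : Fin 3 → Fin 3 → ZMod q) : Finset (Fin 3 → Fin 3 → ℤ) :=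
  (good B K q).filter fun Y => (stab ρ (colq q Y)).Nonempty ∧ (ones (colq p Y)).Nonempty

variable {B K q p : ℕ} [hq : Fact q.Prime] [hp : Fact p.Prime] {ρ : Fin 3 → Fin 3 → ZMod q}

lemma wt_eq : wt B K q p ρ =
    ∑ Y ∈ supp B K q p ρ, (stab ρ (colq q Y)).card * (ones (colq p Y)).card := by
  unfold wt supp
  symm
  apply Finset.sum_filter_of_ne
  intro Y _ h
  exact ⟨Finset.card_pos.1 (Nat.pos_of_ne_zero (left_ne_zero_of_mul h)),
    Finset.card_pos.1 (Nat.pos_of_ne_zero (right_ne_zero_of_mul h))⟩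

lemma supp_det {Y : Fin 3 → Fin 3 → ℤ} (hY : Y ∈ supp B K q p ρ) :
    ((det3 Y : ℤ) : ZMod q) = det3 ρ := by
  obtain ⟨-, ⟨g, hg⟩, -⟩ := Finset.mem_filter.1 hY
  rw [mem_stab] at hg
  have := det3_mv g ρ
  rw [hg.1, one_mul] at this
  rw [← this, ← det3_colq]
  congr 1
  funext j
  exact (hg.2 j).symm

lemma wt_zero (h : ∀ d : ℤ, (d : ZMod q) = det3 ρ → (q : ℤ) ≤ K * |d|) : wt B K q p ρ = 0 := by
  rw [wt_eq]
  apply Finset.sum_eq_zero
  intro Y hY
  have h1 := h _ (supp_det hY)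
  have h2 := ((mem_good _ _ _ _).1 (Finset.mem_filter.1 hY).1).2.1
  omega

lemma wt_inv (J : ℕ) (hJ : 18 * B ^ 2 < 2 ^ J) (hK : 2 ≤ K) (hqp : q < p) (h : det3 ρ ≠ 0) :
    (wt B K q p ρ : ℝ) ≤ 1259712 * J * (B : ℝ) ^ 6 := by
  rw [wt_eq]
  rcases (supp B K q p ρ).eq_empty_or_nonempty with he | ⟨Y0, hY0⟩
  · rw [he]
    simp only [Finset.sum_empty, Nat.cast_zero]
    positivity
  have hsm : ∀ Y ∈ supp B K q p ρ, 2 * |det3 Y| < q := by
    intro Y hY
    have h2 := ((mem_good _ _ _ _).1 (Finset.mem_filter.1 hY).1).2.1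
    have h3 : (2 : ℤ) * |det3 Y| ≤ K * |det3 Y| :=
      mul_le_mul_of_nonneg_right (by exact_mod_cast hK) (abs_nonneg _)
    linarith
  have hd0 : det3 Y0 ≠ 0 := by
    intro h0
    apply h
    rw [← supp_det hY0, h0]
    simp
  have hd : ∀ Y ∈ supp B K q p ρ, det3 Y = det3 Y0 := by
    intro Y hY
    have h1 : (q : ℤ) ∣ det3 Y0 - det3 Y :=
      (ZMod.intCast_eq_intCast_iff_dvd_sub _ _ _).1 ((supp_det hY).trans (supp_det hY0).symm)
    have h2 := hsm Y hY
    have h3 := hsm Y0 hY0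
    have h4 := abs_sub (det3 Y0) (det3 Y)
    have h5 := Int.eq_zero_of_abs_lt_dvd h1 (by linarith)
    linarith
  have h1 : ∑ Y ∈ supp B K q p ρ, (stab ρ (colq q Y)).card * (ones (colq p Y)).card
      ≤ (supp B K q p ρ).card := by
    rw [Finset.card_eq_sum_ones]
    apply Finset.sum_le_sum
    intro Y hY
    have e1 := card_stab3 ρ (colq q Y) h
    have e2 := card_ones3 (colq p Y) (by
      rw [det3_colq, hd Y hY]
      intro h0
      rw [ZMod.intCast_zmod_eq_zero_iff_dvd] at h0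
      have h3 := hsm Y0 hY0
      have h4 : (q : ℤ) < p := by exact_mod_cast hqp
      exact hd0 (Int.eq_zero_of_abs_lt_dvd h0 (by linarith [abs_nonneg (det3 Y0)])))
    exact (Nat.mul_le_mul e1 e2)
  have h2 := count_det B J hJ (det3 Y0) hd0 (supp B K q p ρ) fun Y hY =>
    ⟨((mem_good _ _ _ _).1 (Finset.mem_filter.1 hY).1).1, hd Y hY⟩
  exact le_trans (by exact_mod_cast h1) h2

lemma wt_sing (J : ℕ) (hJ : 18 * B ^ 2 < 2 ^ J) (hK : 2 ≤ K) (hqp : q < p) (h : det3 ρ = 0)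
    (L : AddSubgroup (Fin 3 → ℤ)) (k : ℕ) (hk : 0 < k) (hkp : Nat.Coprime k p)
    (hL : ∀ u ∈ L, ∀ v ∈ L, ∀ c, (k : ℤ) ∣ cr u v c)
    (hrows : ∀ Y ∈ supp B K q p ρ, ∀ c, Y c ∈ L) (S u : ℕ) (hS : ∀ X, (stab ρ X).card ≤ S)
    (hu : (Finset.univ.filter fun x : Fin 3 → ZMod q =>
      ∀ c, dot x (fun j => ρ j c) = 0).card ≤ u) :
    (wt B K q p ρ : ℝ) * ((q : ℝ) ^ 3 * (k : ℝ) ^ 3) ≤ S * (41990400 * J * (B : ℝ) ^ 6 * u) := by
  classical
  set U := Finset.univ.filter fun x : Fin 3 → ZMod q => ∀ c, dot x (fun j => ρ j c) = 0 with hU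
  have hUs : ∀ x ∈ U, ∀ a : ZMod q, a • x ∈ U := by
    intro x hx a
    rw [hU, Finset.mem_filter] at hx ⊢
    refine ⟨Finset.mem_univ _, fun c => ?_⟩
    have := hx.2 c
    simp only [dot, Pi.smul_apply, smul_eq_mul] at this ⊢
    linear_combination a * this
  have hbase : ∀ Y ∈ supp B K q p ρ, (∀ c, sn (Y c) ≤ B) ∧ det3 Y = 0 ∧
      (∃ i j, sg (cr (Y i) (Y j)) ≠ 0) ∧
      ∀ x, (∀ c, dot (Y c) x = 0) → red q x ∈ U ∧ (p : ℤ) ∣ sg x := by
    intro Y hY
    have hdet := supp_det hY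
    obtain ⟨hg, ⟨g, hg1⟩, ⟨f, hf⟩⟩ := Finset.mem_filter.1 hY
    rw [mem_good] at hg
    rw [mem_stab] at hg1
    rw [mem_ones] at hf
    refine ⟨fun c => ?_, ?_, hg.2.2, fun x hx => ⟨?_, ?_⟩⟩
    · rw [sn_le_iff]
      intro j
      have := hg.1 c j
      omega
    · rw [h, ZMod.intCast_zmod_eq_zero_iff_dvd] at hdet
      apply Int.eq_zero_of_abs_lt_dvd hdet
      have h2 := hg.2.1
      have h3 : (2 : ℤ) * |det3 Y| ≤ K * |det3 Y| :=
        mul_le_mul_of_nonneg_right (by exact_mod_cast hK) (abs_nonneg _)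
      linarith [abs_nonneg (det3 Y)]
    · rw [hU, Finset.mem_filter]
      refine ⟨Finset.mem_univ _, ?_⟩
      have := eq_zero_of_det3 g (by rw [hg1.1]; exact one_ne_zero)
        (fun c => dot (red q x) (fun j => ρ j c)) (by
          intro c
          have e0 := congrFun (hg1.2 0) c
          have e1 := congrFun (hg1.2 1) c
          have e2 := congrFun (hg1.2 2) c
          have e3 := congrArg (Int.cast : ℤ → ZMod q) (hx c)
          simp only [mv, dot, colq, red] at e0 e1 e2 e3 ⊢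
          push_cast at e3
          linear_combination (x 0 : ZMod q) * e0 + (x 1 : ZMod q) * e1 + (x 2 : ZMod q) * e2 + e3)
      exact fun c => congrFun this c
    · rw [← ZMod.intCast_zmod_eq_zero_iff_dvd]
      have e0 := hf 0
      have e1 := hf 1
      have e2 := hf 2
      have d0 := congrArg (Int.cast : ℤ → ZMod p) (hx 0)
      have d1 := congrArg (Int.cast : ℤ → ZMod p) (hx 1)
      have d2 := congrArg (Int.cast : ℤ → ZMod p) (hx 2)
      simp only [dot, colq, sg] at e0 e1 e2 d0 d1 d2 ⊢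
      push_cast at d0 d1 d2 ⊢
      linear_combination -(x 0 : ZMod p) * e0 - (x 1 : ZMod p) * e1 - (x 2 : ZMod p) * e2
        + f 0 * d0 + f 1 * d1 + f 2 * d2
  have h2 := count_sing L k hk hL B J hJ q p hp.out hqp U hUs
    ((supp B K q p ρ).filter fun Y => Rk2 (colq p Y)) (by
      intro Y hY
      have hY' := (Finset.mem_filter.1 hY).1
      have := hbase Y hY'
      exact ⟨fun c => ⟨this.1 c, hrows Y hY' c⟩, this.2⟩)
  have hone : (fun _ => 1 : Fin 3 → ZMod p) ≠ 0 := fun h => one_ne_zero (congrFun h 0)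
  have h1 := count_sing (L ⊓ par p (fun _ => 1)) (k * p) (Nat.mul_pos hk hp.out.pos) (by
      intro u hu v hv c
      push_cast
      exact IsCoprime.mul_dvd (Nat.isCoprime_iff_coprime.2 hkp) (hL u hu.1 v hv.1 c)
        (par_dvd p _ hone u hu.2 v hv.2 c)) B J hJ q p hp.out hqp U hUs
    ((supp B K q p ρ).filter fun Y => ¬ Rk2 (colq p Y)) (by
      intro Y hY
      obtain ⟨hY', hr⟩ := Finset.mem_filter.1 hY
      have := hbase Y hY'
      refine ⟨fun c => ⟨this.1 c, hrows Y hY' c, ?_⟩, this.2⟩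
      obtain ⟨-, -, ⟨f, hf⟩⟩ := Finset.mem_filter.1 hY'
      rw [mem_ones] at hf
      have hr' : ∀ i j, cr (colq p Y i) (colq p Y j) = 0 := by
        by_contra hc
        push Not at hc
        exact hr hc
      have key : ∀ i j, (Y c i : ZMod p) = Y c j := by
        intro i j
        have a0 := (cr_eq_zero_iff _ _).1 (hr' i j) c 0
        have a1 := (cr_eq_zero_iff _ _).1 (hr' i j) c 1
        have a2 := (cr_eq_zero_iff _ _).1 (hr' i j) c 2
        have b0 := hf i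
        have b1 := hf j
        simp only [dot, colq] at a0 a1 a2 b0 b1
        linear_combination f 0 * a0 + f 1 * a1 + f 2 * a2 - (Y c i : ZMod p) * b1
          + (Y c j : ZMod p) * b0
      change cr _ _ = 0
      rw [cr_eq_zero_iff]
      intro k l
      simp only [red, one_mul]
      exact key l k)
  have hsplit : wt B K q p ρ ≤ S * p * ((supp B K q p ρ).filter fun Y => Rk2 (colq p Y)).card
      + S * p ^ 2 * ((supp B K q p ρ).filter fun Y => ¬ Rk2 (colq p Y)).card := by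
    rw [wt_eq, ← Finset.sum_filter_add_sum_filter_not _ (fun Y => Rk2 (colq p Y))]
    apply Nat.add_le_add
    · refine (Finset.sum_le_card_nsmul _ _ (S * p) ?_).trans (le_of_eq ?_)
      · intro Y hY
        have := card_ones2 _ (Finset.mem_filter.1 hY).2
        rw [ZMod.card] at this
        exact Nat.mul_le_mul (hS _) this
      · rw [smul_eq_mul, mul_comm]
    · refine (Finset.sum_le_card_nsmul _ _ (S * p ^ 2) ?_).trans (le_of_eq ?_)
      · intro Y _
        have := card_ones1 (colq p Y)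
        rw [ZMod.card] at this
        exact Nat.mul_le_mul (hS _) this
      · rw [smul_eq_mul, mul_comm]
  generalize ((supp B K q p ρ).filter fun Y => Rk2 (colq p Y)).card = a2 at *
  generalize ((supp B K q p ρ).filter fun Y => ¬ Rk2 (colq p Y)).card = a1 at *
  have hu' : (U.card : ℝ) ≤ u := by exact_mod_cast hu
  have hp1 : (1 : ℝ) ≤ p := by exact_mod_cast hp.out.pos
  have hb : 20995200 * J * (B : ℝ) ^ 6 * U.card ≤ 20995200 * J * (B : ℝ) ^ 6 * u :=
    mul_le_mul_of_nonneg_left hu' (by positivity)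
  have h1' : (a1 : ℝ) * ((q : ℝ) ^ 3 * (p : ℝ) ^ 2 * (k : ℝ) ^ 3)
      ≤ 20995200 * J * (B : ℝ) ^ 6 * u := by
    refine le_trans ?_ (h1.trans hb)
    push_cast
    have : (p : ℝ) ^ 2 ≤ (p : ℝ) ^ 4 := pow_le_pow_right₀ hp1 (by norm_num)
    calc (a1 : ℝ) * ((q : ℝ) ^ 3 * (p : ℝ) ^ 2 * (k : ℝ) ^ 3)
        ≤ (a1 : ℝ) * ((q : ℝ) ^ 3 * (p : ℝ) ^ 4 * (k : ℝ) ^ 3) := by gcongr
      _ = _ := by ring
  have h2' := h2.trans hb
  have hs : (wt B K q p ρ : ℝ) ≤ S * p * a2 + S * (p : ℝ) ^ 2 * a1 := by exact_mod_cast hsplit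
  calc (wt B K q p ρ : ℝ) * ((q : ℝ) ^ 3 * (k : ℝ) ^ 3)
      ≤ (S * p * a2 + S * (p : ℝ) ^ 2 * a1) * ((q : ℝ) ^ 3 * (k : ℝ) ^ 3) :=
        mul_le_mul_of_nonneg_right hs (by positivity)
    _ = S * ((a2 : ℝ) * ((q : ℝ) ^ 3 * p * (k : ℝ) ^ 3)
          + (a1 : ℝ) * ((q : ℝ) ^ 3 * (p : ℝ) ^ 2 * (k : ℝ) ^ 3)) := by ring
    _ ≤ S * (20995200 * J * (B : ℝ) ^ 6 * u + 20995200 * J * (B : ℝ) ^ 6 * u) :=
        mul_le_mul_of_nonneg_left (add_le_add h2' h1') (by positivity)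
    _ = _ := by ring

lemma wt_rk2 (J : ℕ) (hJ : 18 * B ^ 2 < 2 ^ J) (hK : 2 ≤ K) (hqp : q < p) (h : Rk2 ρ) :
    (wt B K q p ρ : ℝ) ≤ 41990400 * J * (B : ℝ) ^ 6 := by
  by_cases hd : det3 ρ = 0
  · obtain ⟨i, j, hij⟩ := h.transpose
    have := wt_sing (p := p) J hJ hK hqp hd ⊤ 1 one_pos (Nat.coprime_one_left _) (by simp) (by simp)
      (q ^ 2) q (fun X => by simpa [ZMod.card] using card_stab2 ρ X h) (by
        have e := card_dot2 _ _ 0 0 hij
        rw [ZMod.card] at e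
        refine le_trans (Finset.card_le_card ?_) e
        intro x hx
        rw [Finset.mem_filter] at hx ⊢
        exact ⟨hx.1, hx.2 i, hx.2 j⟩)
    have hq0 : (0 : ℝ) < q := by exact_mod_cast hq.out.pos
    apply le_of_mul_le_mul_right _ (show (0 : ℝ) < (q : ℝ) ^ 3 by positivity)
    push_cast at this
    linarith
  · refine (wt_inv J hJ hK hqp hd).trans ?_
    gcongr
    norm_num

lemma wt_rk1 (J : ℕ) (hJ : 18 * B ^ 2 < 2 ^ J) (hK : 2 ≤ K) (hqp : q < p) (h : ¬ Rk2 ρ)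
    (h0 : ρ 0 0 ≠ 0) : (wt B K q p ρ : ℝ) ≤ 41990400 * J * (B : ℝ) ^ 6 * q := by
  have hr : ∀ i j, cr (ρ i) (ρ j) = 0 := by
    by_contra hc
    push Not at hc
    exact h hc
  have hd : det3 ρ = 0 := by
    rw [det3, hr]
    simp [dot]
  have ha : (fun j => ρ j 0) ≠ 0 := fun h => h0 (congrFun h 0)
  have := wt_sing (p := p) J hJ hK hqp hd (par q fun j => ρ j 0) q hq.out.pos
    ((Nat.coprime_primes hq.out hp.out).2 hqp.ne) (par_dvd q _ ha) (by
      intro Y hY c
      obtain ⟨-, ⟨g, hg⟩, -⟩ := Finset.mem_filter.1 hY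
      rw [mem_stab] at hg
      rw [mem_par, cr_eq_zero_iff]
      intro k l
      have e0 := congrFun (hg.2 k) c
      have e1 := congrFun (hg.2 l) c
      have a1 := (cr_eq_zero_iff _ _).1 (hr k l) 0 1
      have a2 := (cr_eq_zero_iff _ _).1 (hr k l) 0 2
      simp only [mv, dot, colq, red] at e0 e1 ⊢
      linear_combination ρ l 0 * e0 - ρ k 0 * e1 + g c 1 * a1 + g c 2 * a2)
    (q ^ 5) (q ^ 2) (fun X => by simpa [ZMod.card] using card_stab1 ρ X h0) (by
      have e := card_dot1 _ 0 ha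
      rw [ZMod.card] at e
      refine le_trans (Finset.card_le_card ?_) e
      intro x hx
      rw [Finset.mem_filter] at hx ⊢
      exact ⟨hx.1, hx.2 0⟩)
  have hq0 : (0 : ℝ) < q := by exact_mod_cast hq.out.pos
  apply le_of_mul_le_mul_right _ (show (0 : ℝ) < (q : ℝ) ^ 6 by positivity)
  push_cast at this
  linarith

end Vale.Agent.P036
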